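import Vale.Agent.P281.H864.HK.WLoc
import Vale.Agent.P281.H125.TS.C1
import Vale.Agent.P281.H840.TS.C2a

/-!
# P281, project T-HK, block W (helper864): the integral of the top product on a compact manifold

`Wint S α = ∫ α_1 ∧ ⋯ ∧ α_d` depends on the classes of the closed forms `α k` only, and is invariant
under a diffeomorphism.
-/

open Set Filter Metric MeasureTheory
open scoped Topology ContDiff ComplexConjugate

noncomputable section

namespace Vale.Agent.P281.H864.HK

open Vale.Agent.P281.H64 (Cm)
open Vale.Agent.P281.H64.TK Vale.Agent.P281.H303.K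
open Vale.Agent.P281.H64.TK.TS (L1 L2 F1On F2On Cl2 Exact IsD1 Pull2 Dif Real2 Tr)
open Vale.Agent.P281.H125.TS (dx1 dx1_apply dx1_congr F1 F2 IsTop cut f1_cut sum_cut cut_zero
  int_sheet f1_of f2_of pull)

variable {d : ℕ} {E Γ : Type} [TopologicalSpace E] [Group Γ] [MulAction Γ E]

/-- `∫ α_1 ∧ ⋯ ∧ α_d`. -/
def Wint (S : Sheets d E Γ) (α : Fin d → Fin S.N → Cm d → L2 d) : ℂ :=
  S.int fun i z => W fun k => α k i z

/-! ### the density -/

theorem smooth_W {α : Fin d → Cm d → L2 d} {s : Set (Cm d)} (h : ∀ k, ContDiffOn ℝ ∞ (α k) s) :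
    ContDiffOn ℝ ∞ (fun z => W fun k => α k z) s := by
  unfold W Wv pr
  refine contDiffOn_const.mul (ContDiffOn.sum fun π _ => contDiffOn_const.mul
    (contDiffOn_prod fun k _ => ?_))
  exact ((h k).clm_apply contDiffOn_const).clm_apply contDiffOn_const

theorem cont_W {α : Fin d → Cm d → L2 d} {s : Set (Cm d)} (h : ∀ k, ContinuousOn (α k) s) :
    ContinuousOn (fun z => W fun k => α k z) s := by
  unfold W Wv pr
  refine continuousOn_const.mul (continuousOn_finsetSum _ fun π _ => continuousOn_const.mul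
    (continuousOn_finsetProd _ fun k _ => ?_))
  exact ((h k).clm_apply continuousOn_const).clm_apply continuousOn_const

theorem isTop_W {S : Sheets d E Γ} {α : Fin d → Fin S.N → Cm d → L2 d} (hα : ∀ k, F2 S (α k)) :
    IsTop S fun i z => W fun k => α k i z := by
  intro i j z hz w hw γ θ h1 h2 h3
  show (W fun k => α k i z) = _
  rw [W_pull (fderiv ℝ θ z) (a' := fun k => α k j w)]
  · rw [Complex.real_smul, mul_comm]
  · intro k u v
    rw [(hα k).change i j z hz w hw γ θ h1 h2 h3]
    rfl

theorem upd_ev {S : Sheets d E Γ} (α : Fin d → Fin S.N → Cm d → L2 d) (k₀ : Fin d)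
    (γ : Fin S.N → Cm d → L2 d) (i : Fin S.N) (z : Cm d) :
    (fun k => (Function.update α k₀ γ) k i z) =
      Function.update (fun k => α k i z) k₀ (γ i z) := by
  funext k
  by_cases hk : k = k₀
  · subst hk
    rw [Function.update_self, Function.update_self]
  · rw [Function.update_of_ne hk, Function.update_of_ne hk]

theorem f2_upd {S : Sheets d E Γ} {α : Fin d → Fin S.N → Cm d → L2 d} {k₀ : Fin d}
    {γ : Fin S.N → Cm d → L2 d} (hα : ∀ k, k ≠ k₀ → F2 S (α k)) (hγ : F2 S γ) (k : Fin d) :
    F2 S (Function.update α k₀ γ k) := by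
  by_cases hk : k = k₀
  · subst hk
    rw [Function.update_self]; exact hγ
  · rw [Function.update_of_ne hk]; exact hα k hk

theorem int_congr [ContinuousConstSMul Γ E] (S : Sheets d E Γ) {D D' : Fin S.N → Cm d → ℂ}
    (h : ∀ i, ∀ z ∈ ball (0 : Cm d) 3, D i z = D' i z) : S.int D = S.int D' := by
  unfold Sheets.int
  refine Finset.sum_congr rfl fun i _ => ?_
  exact setIntegral_congr_fun (meas_P S i) fun z hz => h i z (P_subset3 S i hz)

/-! ### Stokes -/

variable [ContinuousConstSMul Γ E]

/-- **Stokes' theorem.** -/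
theorem stokesW (S : Sheets d E Γ) {β : Fin S.N → Cm d → L1 d}
    {α : Fin d → Fin S.N → Cm d → L2 d} (k₀ : Fin d) (hβ : F1 S β)
    (hα : ∀ k, k ≠ k₀ → F2 S (α k))
    (hcl : ∀ k, k ≠ k₀ → ∀ i, ∀ z ∈ ball (0 : Cm d) 3, ∀ u v w,
      fderiv ℝ (α k i) z u v w + fderiv ℝ (α k i) z v w u + fderiv ℝ (α k i) z w u v = 0) :
    Wint S (Function.update α k₀ fun i => dx1 (β i)) = 0 := by
  have e1 : ∀ i, ∀ z ∈ ball (0 : Cm d) 3, dx1 (β i) z = ∑ k, dx1 (cut S β k i) z := by
    intro i z hz
    have hd : ∀ k, DifferentiableAt ℝ (cut S β k i) z := fun k =>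
      (((f1_cut hβ k).smooth i).contDiffAt (isOpen_ball.mem_nhds hz)).differentiableAt (by simp)
    have h1 : β i = fun z => ∑ k, cut S β k i z := funext fun z => (sum_cut S β i z).symm
    have h2 : fderiv ℝ (β i) z = ∑ k, fderiv ℝ (cut S β k i) z := by
      conv_lhs => rw [h1]
      exact fderiv_fun_sum fun k _ => hd k
    ext u w
    rw [dx1_apply, h2]
    simp only [sum_apply, dx1_apply, Finset.sum_sub_distrib]
  have c1 : ∀ k i, ContinuousOn (fun z => W fun l => (Function.update α k₀ fun i =>
      dx1 (cut S β k i)) l i z) (ball 0 3) := fun k i =>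
    cont_W fun l => ((f2_upd hα (f1_cut hβ k).dx l).smooth i).continuousOn
  have e2 : ∀ k, ∑ j, ∫ z in S.P j, (W fun l => (Function.update α k₀ fun i =>
      dx1 (cut S β k i)) l j z) = 0 := by
    intro k
    have hk := f1_cut hβ k
    rw [int_sheet S (isTop_W fun l => f2_upd hα hk.dx l) (c1 k) k]
    · simp only [upd_ev]
      refine stokes_loc (b := cut S β k k) (a := fun l => α l k) (hk.smooth k)
        (fun l hl => (hα l hl).smooth k) (fun l hl => hcl l hl k) (fun z hz hz2 => ?_) _
      have h3 : S.σ k z ∉ V S k (closedBall 0 2) := by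
        intro h
        rw [co_mem (closedBall_subset_ball (by norm_num))] at h
        have h3 : co S k (S.σ k z) = z := co_eq (γ := 1) hz (one_smul _ _)
        rw [h3] at h
        exact hz2 h.2
      exact cut_zero β h3
    · intro j z hz hV
      have h6 : ContinuousAt (S.σ j) z := (S.map_nhds j z hz).le
      have h5 : cut S β k j =ᶠ[𝓝 z] fun _ => 0 := by
        filter_upwards [h6.eventually
          ((isClosed_V (S := S) (i := k) (by norm_num : (2 : ℝ) < 3)).isOpen_compl.mem_nhds hV)]
          with u hu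
        exact cut_zero β hu
      have h7 : dx1 (cut S β k j) z = 0 := by
        rw [dx1_congr h5]
        ext u w
        simp [dx1_apply]
      refine Wv_zero _ _ k₀ ?_
      rw [Function.update_self]
      exact h7
  unfold Wint Sheets.int
  have e3 : ∀ i, ∫ z in S.P i, (W fun l => (Function.update α k₀ fun i => dx1 (β i)) l i z) =
      ∑ k, ∫ z in S.P i, (W fun l => (Function.update α k₀ fun i =>
        dx1 (cut S β k i)) l i z) := by
    intro i
    rw [← integral_finsetSum]
    · refine setIntegral_congr_fun (meas_P S i) fun z hz => ?_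
      simp only [upd_ev]
      rw [e1 i z (P_subset3 S i hz)]
      exact Wv_sum _ _ _ _ _
    · intro k _
      exact integrableOn_P S i (c1 k i)
  rw [Finset.sum_congr rfl fun i _ => e3 i, Finset.sum_comm]
  exact Finset.sum_eq_zero fun k _ => e2 k

variable [Subsingleton Γ] {S : Sheets d E Γ}

/-- **(W3)** the integral of the top product of closed forms, one of which is exact. -/
theorem wint_exact {α : Fin d → Fin S.N → Cm d → L2 d} (k₀ : Fin d)
    (h : ∀ k, k ≠ k₀ → Cl2 S (α k)) (he : Exact S (α k₀)) : Wint S α = 0 := by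
  obtain ⟨β, hβ, hd⟩ := he
  have h1 := stokesW S k₀ (f1_of hβ) (fun k hk => f2_of (h k hk).toF2On)
    (fun k hk i z hz => (h k hk).closed i z hz)
  rw [← h1]
  refine int_congr S fun i z hz => ?_
  congr 1
  funext k
  by_cases hk : k = k₀
  · subst hk
    rw [Function.update_self]
    ext u v
    rw [dx1_apply, hd i z hz (mem_univ _) u v]
  · rw [Function.update_of_ne hk]

end Vale.Agent.P281.H864.HK
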