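import Vale.Agent.P281.H64.TS.Defs

/-!
# P281, project T-HK, block W (helper864): the top product of 2-forms

`Wv a v` is the value of `⋀_i a_i` on the vectors `v (i, 0), v (i, 1)`, for a family of bilinear
forms `a i` indexed by a finite type `ι`.
-/

open Set Filter Metric MeasureTheory
open scoped Topology ContDiff ComplexConjugate

noncomputable section

namespace Vale.Agent.P281.H864.HK

section alg

variable {ι V : Type} [Fintype ι] [DecidableEq ι] [NormedAddCommGroup V] [NormedSpace ℝ V]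

/-- The product of the values on the pairs of vectors. -/
def pr (a : ι → (V →L[ℝ] V →L[ℝ] ℂ)) (v : ι × Fin 2 → V) : ℂ := ∏ i, a i (v (i, 0)) (v (i, 1))

/-- **The top product** `⋀_i a_i` on the vectors `v`. -/
def Wv (a : ι → (V →L[ℝ] V →L[ℝ] ℂ)) (v : ι × Fin 2 → V) : ℂ :=
  (1 / 2 : ℂ) ^ Fintype.card ι *
    ∑ π : Equiv.Perm (ι × Fin 2), ((Equiv.Perm.sign π : ℤ) : ℂ) * pr a (fun p => v (π p))

/-! ### multilinearity in the vectors -/

theorem pr_upd (a : ι → (V →L[ℝ] V →L[ℝ] ℂ)) (v : ι × Fin 2 → V) (i : ι) (k : Fin 2) (x : V) :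
    pr a (Function.update v (i, k) x) =
      a i (Function.update v (i, k) x (i, 0)) (Function.update v (i, k) x (i, 1)) *
        ∏ j ∈ Finset.univ.erase i, a j (v (j, 0)) (v (j, 1)) := by
  rw [pr, ← Finset.mul_prod_erase Finset.univ _ (Finset.mem_univ i)]
  congr 1
  refine Finset.prod_congr rfl fun j hj => ?_
  have hj' : j ≠ i := (Finset.mem_erase.1 hj).1
  rw [Function.update_of_ne (by simp [hj']), Function.update_of_ne (by simp [hj'])]

/-- The product, as a multilinear map in the vectors. -/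
def prM (a : ι → (V →L[ℝ] V →L[ℝ] ℂ)) : MultilinearMap ℝ (fun _ : ι × Fin 2 => V) ℂ where
  toFun := pr a
  map_update_add' := by
    intro inst v p x y
    have e : inst = instDecidableEqProd := Subsingleton.elim _ _
    subst e
    obtain ⟨i, k⟩ := p
    rw [pr_upd, pr_upd, pr_upd, ← add_mul]
    congr 1
    fin_cases k
    · simp
    · simp
  map_update_smul' := by
    intro inst v p c x
    have e : inst = instDecidableEqProd := Subsingleton.elim _ _
    subst e
    obtain ⟨i, k⟩ := p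
    rw [pr_upd, pr_upd, ← smul_mul_assoc]
    congr 1
    fin_cases k
    · simp
    · simp

/-- The top product, as an alternating map in the vectors. -/
def WA (a : ι → (V →L[ℝ] V →L[ℝ] ℂ)) : V [⋀^ι × Fin 2]→ₗ[ℝ] ℂ :=
  MultilinearMap.alternatization (prM a)

theorem WA_apply (a : ι → (V →L[ℝ] V →L[ℝ] ℂ)) (v : ι × Fin 2 → V) :
    Wv a v = (1 / 2 : ℂ) ^ Fintype.card ι * WA a v := by
  rw [Wv, WA, MultilinearMap.alternatization_apply]
  congr 1
  refine Finset.sum_congr rfl fun π _ => ?_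
  rw [MultilinearMap.domDomCongr_apply, Units.smul_def, zsmul_eq_mul]
  rfl

/-- An alternating map of top degree is multiplied by the determinant. -/
theorem alt_det {κ : Type} [Fintype κ] [DecidableEq κ] (e : Module.Basis κ ℝ V)
    (f : V [⋀^κ]→ₗ[ℝ] ℂ) (A : V →ₗ[ℝ] V) (v : κ → V) :
    f (fun i => A (v i)) = (LinearMap.det A : ℝ) • f v := by
  have key : ∀ g : V [⋀^κ]→ₗ[ℝ] ℝ, g (fun i => A (v i)) = LinearMap.det A * g v := by
    intro g
    rw [g.eq_smul_basis_det e]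
    simp only [AlternatingMap.smul_apply, smul_eq_mul]
    have := e.det_comp A v
    simp only [Function.comp_def] at this
    rw [this]
    ring
  have h1 := key (Complex.reLm.compAlternatingMap f)
  have h2 := key (Complex.imLm.compAlternatingMap f)
  simp only [LinearMap.compAlternatingMap_apply, Complex.reLm_coe, Complex.imLm_coe] at h1 h2
  apply Complex.ext
  · rw [Complex.real_smul, Complex.re_ofReal_mul]; exact h1
  · rw [Complex.real_smul, Complex.im_ofReal_mul]; exact h2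

/-- **(W2)** the top product of the pull-backs. -/
theorem Wv_pull (e : Module.Basis (ι × Fin 2) ℝ V) (L : V →L[ℝ] V)
    {a a' : ι → (V →L[ℝ] V →L[ℝ] ℂ)} (h : ∀ i u v, a i u v = a' i (L u) (L v))
    (v : ι × Fin 2 → V) : Wv a v = Wv a' v * (L.det : ℂ) := by
  have h1 : Wv a v = Wv a' (fun p => L (v p)) := by
    simp only [Wv, pr, h]
  rw [h1, WA_apply, WA_apply]
  have h2 := alt_det e (WA a') (L : V →ₗ[ℝ] V) v
  simp only [ContinuousLinearMap.coe_coe] at h2
  rw [h2, Complex.real_smul]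
  have h3 : (LinearMap.det (L : V →ₗ[ℝ] V) : ℝ) = L.det := rfl
  rw [h3]
  ring

/-! ### symmetry -/

/-- Right translation in the sum over the permutations. -/
theorem sum_perm {κ : Type} [Fintype κ] [DecidableEq κ] (F : Equiv.Perm κ → ℂ)
    (ρ : Equiv.Perm κ) :
    ∑ π : Equiv.Perm κ, ((Equiv.Perm.sign π : ℤ) : ℂ) * F (π * ρ) =
      ((Equiv.Perm.sign ρ : ℤ) : ℂ) * ∑ π : Equiv.Perm κ, ((Equiv.Perm.sign π : ℤ) : ℂ) * F π := by
  rw [Finset.mul_sum, ← Equiv.sum_comp (Equiv.mulRight ρ)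
    (fun π => ((Equiv.Perm.sign ρ : ℤ) : ℂ) * (((Equiv.Perm.sign π : ℤ) : ℂ) * F π))]
  refine Finset.sum_congr rfl fun π _ => ?_
  rw [Equiv.coe_mulRight, Equiv.Perm.sign_mul, ← mul_assoc]
  congr 1
  rw [Units.val_mul, Int.cast_mul, mul_left_comm, ← Int.cast_mul, ← Units.val_mul,
    Int.units_mul_self]
  simp

/-- **(W1)** the top product does not depend on the order of the factors. -/
theorem Wv_perm (a : ι → (V →L[ℝ] V →L[ℝ] ℂ)) (τ : Equiv.Perm ι) (v : ι × Fin 2 → V) :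
    Wv (fun i => a (τ i)) v = Wv a v := by
  set ρ : Equiv.Perm (ι × Fin 2) := Equiv.prodCongrLeft fun _ : Fin 2 => τ⁻¹ with hρ
  have hs : Equiv.Perm.sign ρ = 1 := by
    rw [hρ, Equiv.Perm.sign_prodCongrLeft, Fin.prod_univ_two, Int.units_mul_self]
  have h1 := sum_perm (fun π => pr a (fun p => v (π p))) ρ
  rw [hs] at h1
  rw [Wv, Wv]
  congr 1
  rw [Units.val_one, Int.cast_one, one_mul] at h1
  rw [← h1]
  refine Finset.sum_congr rfl fun π _ => ?_
  congr 1
  rw [pr, pr, ← Equiv.prod_comp τ (fun i => a i (v ((π * ρ) (i, 0))) (v ((π * ρ) (i, 1))))]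
  refine Finset.prod_congr rfl fun i _ => ?_
  have h2 : ∀ k : Fin 2, ρ (τ i, k) = (i, k) := by
    intro k
    show (τ⁻¹ (τ i), k) = (i, k)
    rw [show τ⁻¹ (τ i) = i from Equiv.symm_apply_apply τ i]
  rw [Equiv.Perm.mul_apply, Equiv.Perm.mul_apply, h2, h2]

/-! ### multilinearity in the forms -/

theorem pr_form (a : ι → (V →L[ℝ] V →L[ℝ] ℂ)) (v : ι × Fin 2 → V) (i : ι)
    (b : V →L[ℝ] V →L[ℝ] ℂ) : pr (Function.update a i b) v =
      b (v (i, 0)) (v (i, 1)) * ∏ j ∈ Finset.univ.erase i, a j (v (j, 0)) (v (j, 1)) := by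
  rw [pr, ← Finset.mul_prod_erase Finset.univ _ (Finset.mem_univ i), Function.update_self]
  congr 1
  refine Finset.prod_congr rfl fun j hj => ?_
  rw [Function.update_of_ne (Finset.mem_erase.1 hj).1]

/-- The linear form `b ↦ Wv (update a i b) v`. -/
def Wl (v : ι × Fin 2 → V) (a : ι → (V →L[ℝ] V →L[ℝ] ℂ)) (i : ι) :
    (V →L[ℝ] V →L[ℝ] ℂ) →ₗ[ℂ] ℂ where
  toFun b := Wv (Function.update a i b) v
  map_add' b c := by
    simp only [Wv, pr_form, add_apply, add_mul, mul_add, Finset.sum_add_distrib]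
  map_smul' c b := by
    simp only [Wv, pr_form, smul_apply, smul_eq_mul, RingHom.id_apply, Finset.mul_sum]
    refine Finset.sum_congr rfl fun π _ => ?_
    ring

theorem Wl_apply (v : ι × Fin 2 → V) (a : ι → (V →L[ℝ] V →L[ℝ] ℂ)) (i : ι)
    (b : V →L[ℝ] V →L[ℝ] ℂ) : Wl v a i b = Wv (Function.update a i b) v := rfl

theorem Wv_add (v : ι × Fin 2 → V) (a : ι → (V →L[ℝ] V →L[ℝ] ℂ)) (i : ι)
    (b c : V →L[ℝ] V →L[ℝ] ℂ) :
    Wv (Function.update a i (b + c)) v =
      Wv (Function.update a i b) v + Wv (Function.update a i c) v := (Wl v a i).map_add b c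

theorem Wv_sub (v : ι × Fin 2 → V) (a : ι → (V →L[ℝ] V →L[ℝ] ℂ)) (i : ι)
    (b c : V →L[ℝ] V →L[ℝ] ℂ) :
    Wv (Function.update a i (b - c)) v =
      Wv (Function.update a i b) v - Wv (Function.update a i c) v := (Wl v a i).map_sub b c

theorem Wv_smul (v : ι × Fin 2 → V) (a : ι → (V →L[ℝ] V →L[ℝ] ℂ)) (i : ι) (c : ℂ)
    (b : V →L[ℝ] V →L[ℝ] ℂ) :
    Wv (Function.update a i (c • b)) v = c * Wv (Function.update a i b) v :=
  (Wl v a i).map_smul c b

theorem Wv_sum {κ : Type} (s : Finset κ) (v : ι × Fin 2 → V) (a : ι → (V →L[ℝ] V →L[ℝ] ℂ)) (i : ι)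
    (b : κ → (V →L[ℝ] V →L[ℝ] ℂ)) :
    Wv (Function.update a i (∑ k ∈ s, b k)) v = ∑ k ∈ s, Wv (Function.update a i (b k)) v :=
  map_sum (Wl v a i) b s

theorem Wv_zero (v : ι × Fin 2 → V) (a : ι → (V →L[ℝ] V →L[ℝ] ℂ)) (i : ι) (h : a i = 0) :
    Wv a v = 0 := by
  have h1 := (Wl v a i).map_zero
  rwa [Wl_apply, ← h, Function.update_eq_self] at h1

/-- Complex conjugation. -/
theorem Wv_conj {a a' : ι → (V →L[ℝ] V →L[ℝ] ℂ)} (h : ∀ i u v, a' i u v = conj (a i u v))
    (v : ι × Fin 2 → V) : Wv a' v = conj (Wv a v) := by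
  simp only [Wv, pr, h, map_mul, map_sum, map_prod, map_pow, map_intCast, map_div₀, map_one,
    map_ofNat]

end alg

open Vale.Agent.P281.H64 (Cm)
open Vale.Agent.P281.H64.TK.TS

/-- The real basis `e_1, i e_1, e_2, i e_2, …` of `ℂ^d`. -/
def rbp (d : ℕ) : Module.Basis (Fin d × Fin 2) ℝ (Cm d) :=
  (Pi.basis fun _ : Fin d => Complex.basisOneI).reindex (Equiv.sigmaEquivProd (Fin d) (Fin 2))

theorem rbp_apply {d : ℕ} (k : Fin d) (l : Fin 2) :
    rbp d (k, l) = Pi.single k ((![1, Complex.I] : Fin 2 → ℂ) l) := by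
  rw [rbp, Module.Basis.reindex_apply, Equiv.sigmaEquivProd_symm_apply, Pi.basis_apply,
    Complex.coe_basisOneI]

/-- **The density of `a_1 ∧ ⋯ ∧ a_d`**, with respect to the Lebesgue measure of `ℂ^d`. -/
def W {d : ℕ} (a : Fin d → L2 d) : ℂ := Wv a (rbp d)

/-- (W2) -/
theorem W_pull {d : ℕ} (L : Cm d →L[ℝ] Cm d) {a a' : Fin d → L2 d}
    (h : ∀ i u v, a i u v = a' i (L u) (L v)) : W a = W a' * (L.det : ℂ) :=
  Wv_pull (rbp d) L h _

end Vale.Agent.P281.H864.HK
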