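import Vale.Agent.P281.H864.HK.W
import Vale.Agent.P281.H624.HK.Dec

/-!
# P281, project T-HK (helper864): types and the top product

If half of the factors of a top product are of type `(0,2)`, only the `(2,0)`-parts of the other
ones matter.
-/

open Set Filter Metric MeasureTheory
open scoped Topology ContDiff ComplexConjugate

noncomputable section

namespace Vale.Agent.P281.H864.HK

section alg

variable {ι U : Type} [Fintype ι] [DecidableEq ι] [AddCommGroup U] [Module ℂ U]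

theorem prC_upd (A : ι → (U →ₗ[ℂ] U →ₗ[ℂ] ℂ)) (v : ι × Fin 2 → U) (i : ι) (k : Fin 2) (x : U) :
    ∏ j, A j (Function.update v (i, k) x (j, 0)) (Function.update v (i, k) x (j, 1)) =
      A i (Function.update v (i, k) x (i, 0)) (Function.update v (i, k) x (i, 1)) *
        ∏ j ∈ Finset.univ.erase i, A j (v (j, 0)) (v (j, 1)) := by
  rw [← Finset.mul_prod_erase Finset.univ _ (Finset.mem_univ i)]
  congr 1
  refine Finset.prod_congr rfl fun j hj => ?_
  have hj' : j ≠ i := (Finset.mem_erase.1 hj).1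
  rw [Function.update_of_ne (by simp [hj']), Function.update_of_ne (by simp [hj'])]

/-- The product of the values on the pairs of vectors, over `ℂ`. -/
def prC (A : ι → (U →ₗ[ℂ] U →ₗ[ℂ] ℂ)) : MultilinearMap ℂ (fun _ : ι × Fin 2 => U) ℂ where
  toFun v := ∏ i, A i (v (i, 0)) (v (i, 1))
  map_update_add' := by
    intro inst v p x y
    have e : inst = instDecidableEqProd := Subsingleton.elim _ _
    subst e
    obtain ⟨i, k⟩ := p
    rw [prC_upd, prC_upd, prC_upd, ← add_mul]
    congr 1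
    fin_cases k
    · simp
    · simp
  map_update_smul' := by
    intro inst v p c x
    have e : inst = instDecidableEqProd := Subsingleton.elim _ _
    subst e
    obtain ⟨i, k⟩ := p
    rw [prC_upd, prC_upd, ← smul_mul_assoc]
    congr 1
    fin_cases k
    · simp
    · simp

/-- The complex top product. -/
def WC (A : ι → (U →ₗ[ℂ] U →ₗ[ℂ] ℂ)) (v : ι × Fin 2 → U) : ℂ :=
  ∑ π : Equiv.Perm (ι × Fin 2), ((Equiv.Perm.sign π : ℤ) : ℂ) *
    ∏ i, A i (v (π (i, 0))) (v (π (i, 1)))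

theorem WC_eq (A : ι → (U →ₗ[ℂ] U →ₗ[ℂ] ℂ)) (v : ι × Fin 2 → U) :
    WC A v = MultilinearMap.alternatization (prC A) v := by
  rw [WC, MultilinearMap.alternatization_apply]
  refine Finset.sum_congr rfl fun π _ => ?_
  rw [MultilinearMap.domDomCongr_apply, Units.smul_def, zsmul_eq_mul]
  rfl

theorem WC_map (e : Module.Basis (ι × Fin 2) ℂ U) (A : ι → (U →ₗ[ℂ] U →ₗ[ℂ] ℂ)) (B : U →ₗ[ℂ] U)
    (v : ι × Fin 2 → U) : WC A (fun p => B (v p)) = LinearMap.det B * WC A v := by
  rw [WC_eq, WC_eq, AlternatingMap.eq_smul_basis_det e (MultilinearMap.alternatization (prC A))]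
  simp only [AlternatingMap.smul_apply, smul_eq_mul]
  have := e.det_comp B v
  simp only [Function.comp_def] at this
  rw [this]
  ring

end alg

open Vale.Agent.P281.H64 (Cm)
open Vale.Agent.P281.H64.TK.TS (L1 L2)
open Vale.Agent.P281.H83.HK (tf cj c20)

variable {d : ℕ}

/-- The complex bilinear form on `ℂ ⊗ ℂ^d` of a real bilinear form on `ℂ^d`. -/
def bc (a : L2 d) : (Fin d × Fin 2 → ℂ) →ₗ[ℂ] (Fin d × Fin 2 → ℂ) →ₗ[ℂ] ℂ :=
  Matrix.toLinearMap₂' ℂ (Matrix.of fun p q => a (Vale.Agent.P281.H83.HK.rb p)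
    (Vale.Agent.P281.H83.HK.rb q))

theorem bc_single (a : L2 d) (p q : Fin d × Fin 2) :
    bc a (Pi.single p 1) (Pi.single q 1) =
      a (Vale.Agent.P281.H83.HK.rb p) (Vale.Agent.P281.H83.HK.rb q) := by
  rw [bc, Matrix.toLinearMap₂'_apply', single_one_dotProduct, Matrix.mulVec_single_one]
  rfl

/-- The vectors `2 ∂/∂z_k`, `2 ∂/∂ conj z_k`. -/
def pv (p : Fin d × Fin 2) : Fin d × Fin 2 → ℂ :=
  Pi.single (p.1, 0) 1 + (if p.2 = 0 then -Complex.I else Complex.I) • Pi.single (p.1, 1) 1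

theorem bc_pv (a : L2 d) (k l : Fin d) (i j : Fin 2) :
    bc a (pv (k, i)) (pv (l, j)) =
      a (Vale.Agent.P281.H83.HK.rb (k, 0)) (Vale.Agent.P281.H83.HK.rb (l, 0)) +
      (if i = 0 then -Complex.I else Complex.I) *
        a (Vale.Agent.P281.H83.HK.rb (k, 1)) (Vale.Agent.P281.H83.HK.rb (l, 0)) +
      (if j = 0 then -Complex.I else Complex.I) *
        a (Vale.Agent.P281.H83.HK.rb (k, 0)) (Vale.Agent.P281.H83.HK.rb (l, 1)) +
      (if i = 0 then -Complex.I else Complex.I) * (if j = 0 then -Complex.I else Complex.I) *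
        a (Vale.Agent.P281.H83.HK.rb (k, 1)) (Vale.Agent.P281.H83.HK.rb (l, 1)) := by
  simp only [pv, map_add, map_smul, LinearMap.add_apply, LinearMap.smul_apply, smul_eq_mul,
    bc_single]
  ring

theorem bc_20 (a : L2 d) (k l : Fin d) : bc a (pv (k, 0)) (pv (l, 0)) = 4 * c20 a k l := by
  rw [bc_pv]
  simp only [if_true, c20, Matrix.of_apply]
  linear_combination (a (Vale.Agent.P281.H83.HK.rb (k, 1)) (Vale.Agent.P281.H83.HK.rb (l, 1))) *
    Complex.I_sq

theorem bc_cj (m : Matrix (Fin d) (Fin d) ℂ) (p q : Fin d × Fin 2)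
    (h : p.2 = 0 ∨ q.2 = 0) : bc (cj (tf m)) (pv p) (pv q) = 0 := by
  obtain ⟨k, i⟩ := p
  obtain ⟨l, j⟩ := q
  rw [bc_pv]
  simp only [H624.HK.cj_apply, H624.HK.rb0, H624.HK.rb1, H624.HK.tf_rb, map_mul, map_one,
    Complex.conj_I]
  have hI := Complex.I_sq
  simp only at h
  rcases h with h | h
  · subst h
    by_cases hj : j = 0
    · subst hj
      simp only [if_true]
      linear_combination (conj (m k l) * (1 + Complex.I ^ 2)) * hI
    · simp only [if_true, if_neg hj]
      linear_combination (conj (m k l) * (1 - Complex.I ^ 2)) * hI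
  · subst h
    by_cases hi : i = 0
    · subst hi
      simp only [if_true]
      linear_combination (conj (m k l) * (1 + Complex.I ^ 2)) * hI
    · simp only [if_true, if_neg hi]
      linear_combination (conj (m k l) * (1 - Complex.I ^ 2)) * hI

/-- The inverse of the change of basis. -/
def bB : (Fin d × Fin 2 → ℂ) →ₗ[ℂ] (Fin d × Fin 2 → ℂ) :=
  (Pi.basisFun ℂ (Fin d × Fin 2)).constr ℂ fun q =>
    if q.2 = 0 then (1 / 2 : ℂ) • (Pi.single (q.1, 0) 1 + Pi.single (q.1, 1) 1)
    else (Complex.I / 2) • (Pi.single (q.1, 0) 1 - Pi.single (q.1, 1) 1)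

theorem bB_pv (p : Fin d × Fin 2) : bB (pv p) = Pi.single p 1 := by
  have h : ∀ q : Fin d × Fin 2, bB (Pi.single q 1) =
      if q.2 = 0 then (1 / 2 : ℂ) • (Pi.single (q.1, 0) 1 + Pi.single (q.1, 1) 1)
      else (Complex.I / 2) • (Pi.single (q.1, 0) 1 - Pi.single (q.1, 1) 1) := by
    intro q
    have := (Pi.basisFun ℂ (Fin d × Fin 2)).constr_basis ℂ (fun q : Fin d × Fin 2 =>
      if q.2 = 0 then (1 / 2 : ℂ) • ((Pi.single (q.1, 0) 1 : Fin d × Fin 2 → ℂ) +
        Pi.single (q.1, 1) 1)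
      else (Complex.I / 2) • (Pi.single (q.1, 0) 1 - Pi.single (q.1, 1) 1)) q
    rw [Pi.basisFun_apply] at this
    exact this
  obtain ⟨k, i⟩ := p
  have hI := Complex.I_sq
  rw [pv, map_add, map_smul, h, h]
  simp only [if_true, if_neg (by decide : ¬ ((1 : Fin 2) = 0))]
  ext q
  fin_cases i
  · simp only [Pi.add_apply, Pi.smul_apply, Pi.sub_apply, smul_eq_mul, Fin.zero_eta, Fin.isValue,
      if_true]
    linear_combination (-((Pi.single (k, (0 : Fin 2)) (1 : ℂ) : Fin d × Fin 2 → ℂ) q -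
      (Pi.single (k, (1 : Fin 2)) (1 : ℂ) : Fin d × Fin 2 → ℂ) q) / 2) * hI
  · simp only [Pi.add_apply, Pi.smul_apply, Pi.sub_apply, smul_eq_mul, Fin.mk_one, Fin.isValue,
      if_neg (by decide : ¬ ((1 : Fin 2) = 0))]
    linear_combination (((Pi.single (k, (0 : Fin 2)) (1 : ℂ) : Fin d × Fin 2 → ℂ) q -
      (Pi.single (k, (1 : Fin 2)) (1 : ℂ) : Fin d × Fin 2 → ℂ) q) / 2) * hI

/-- The top product in the complex basis. -/
theorem W_pv (a : Fin d → L2 d) : Vale.Agent.P281.H83.HK.W a =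
    ((2 : ℂ) ^ d)⁻¹ * (LinearMap.det (bB (d := d)) * WC (fun i => bc (a i)) pv) := by
  rw [← WC_map (Pi.basisFun ℂ (Fin d × Fin 2)), Vale.Agent.P281.H83.HK.W, WC]
  simp only [bB_pv, bc_single]

/-- **Types.** If the factors in `J` are of type `(0,2)`, `J` is one half of the indices, and the
factor `k₀ ∉ J` has no `(2,0)`-part, the top product vanishes. -/
theorem W_type {a : Fin d → L2 d} {J : Finset (Fin d)} (hJ : 2 * J.card = d)
    (m : Fin d → Matrix (Fin d) (Fin d) ℂ) (ha : ∀ i ∈ J, a i = cj (tf (m i))) {k₀ : Fin d}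
    (hk : k₀ ∉ J) (h0 : c20 (a k₀) = 0) : Vale.Agent.P281.H83.HK.W a = 0 := by
  rw [W_pv, WC, Finset.sum_eq_zero, mul_zero, mul_zero]
  intro π _
  by_contra hne
  have hne' : ∀ i, bc (a i) (pv (π (i, 0))) (pv (π (i, 1))) ≠ 0 := fun i h =>
    hne (by rw [Finset.prod_eq_zero (Finset.mem_univ i) h, mul_zero])
  have h1 : ∀ i ∈ J, (π (i, 0)).2 = 1 ∧ (π (i, 1)).2 = 1 := by
    intro i hi
    have h2 := hne' i
    rw [ha i hi] at h2
    have h3 : ¬ ((π (i, 0)).2 = 0 ∨ (π (i, 1)).2 = 0) := fun h => h2 (bc_cj _ _ _ h)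
    push Not at h3
    constructor
    · have := h3.1
      omega
    · have := h3.2
      omega
  have h4 : (J ×ˢ (Finset.univ : Finset (Fin 2))).map π.toEmbedding =
      (Finset.univ : Finset (Fin d)) ×ˢ {(1 : Fin 2)} := by
    refine Finset.eq_of_subset_of_card_le ?_ ?_
    · intro q hq
      rw [Finset.mem_map] at hq
      obtain ⟨⟨i, l⟩, hil, rfl⟩ := hq
      rw [Finset.mem_product] at hil
      rw [Finset.mem_product, Finset.mem_singleton]
      refine ⟨Finset.mem_univ _, ?_⟩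
      have h5 := h1 i hil.1
      show (π (i, l)).2 = 1
      fin_cases l
      · exact h5.1
      · exact h5.2
    · rw [Finset.card_map, Finset.card_product, Finset.card_product, Finset.card_singleton,
        Finset.card_univ, Finset.card_univ, Fintype.card_fin, Fintype.card_fin]
      omega
  have h6 : ∀ l : Fin 2, (π (k₀, l)).2 = 0 := by
    intro l
    have h7 : π (k₀, l) ∉ (Finset.univ : Finset (Fin d)) ×ˢ {(1 : Fin 2)} := by
      rw [← h4, Finset.mem_map]
      rintro ⟨q, hq, he⟩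
      have : q = (k₀, l) := π.injective he
      subst this
      exact hk (Finset.mem_product.1 hq).1
    have h8 : ¬ (π (k₀, l)).2 = 1 := fun h => h7 (Finset.mem_product.2
      ⟨Finset.mem_univ _, Finset.mem_singleton.2 h⟩)
    omega
  apply hne' k₀
  have e0 : π (k₀, 0) = ((π (k₀, 0)).1, 0) := Prod.ext rfl (h6 0)
  have e1 : π (k₀, 1) = ((π (k₀, 1)).1, 0) := Prod.ext rfl (h6 1)
  rw [e0, e1, bc_20, h0]
  simp

end Vale.Agent.P281.H864.HK
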