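import Vale.Agent.P281.H864.HK.WInt
import Vale.Agent.P281.H864.HK.Typ

/-!
# P281, project T-HK (helper864): replacing one factor of a top product by its harmonic part
-/

open Set Filter Metric MeasureTheory
open scoped Topology ContDiff ComplexConjugate

noncomputable section

namespace Vale.Agent.P281.H864.HK

open Vale.Agent.P281.H64 (Cm)
open Vale.Agent.P281.H64.TK Vale.Agent.P281.H303.K
open Vale.Agent.P281.H64.TK.TS (L1 L2 F1On F2On Cl2 Exact IsD1 Pull2 Dif Real2 Tr d1)
open Vale.Agent.P281.H83.HK (tf cj c20 ts)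
open Vale.Agent.P281.H125.TS (f1_of f2_of)

variable {d : ℕ}

theorem tf_sum (m : Matrix (Fin d) (Fin d) ℂ) :
    tf m = ∑ j, ∑ k, m j k • tf (Matrix.single j k 1) := by
  ext u v
  rw [sum_apply, sum_apply, H624.HK.tf_apply]
  refine Finset.sum_congr rfl fun j _ => ?_
  rw [sum_apply, sum_apply]
  refine Finset.sum_congr rfl fun k _ => ?_
  rw [smul_apply, smul_apply, H624.HK.tf_apply, smul_eq_mul]
  congr 1
  rw [Finset.sum_eq_single j, Finset.sum_eq_single k]
  · simp
  · intro l _ hl
    simp [Matrix.single_apply, hl.symm]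
  · simp
  · intro l _ hl
    refine Finset.sum_eq_zero fun q _ => ?_
    simp [Matrix.single_apply, hl.symm]
  · simp

theorem c20_sub (a b : L2 d) : c20 (a - b) = c20 a - c20 b := by
  ext j k
  simp only [c20, Matrix.of_apply, Matrix.sub_apply, sub_apply]
  ring

theorem cont_c20 {γ : Cm d → L2 d} {s : Set (Cm d)} (h : ContinuousOn γ s) (j k : Fin d) :
    ContinuousOn (fun z => c20 (γ z) j k) s := by
  have e : ∀ u v, ContinuousOn (fun z => γ z u v) s := fun u v =>
    (h.clm_apply continuousOn_const).clm_apply continuousOn_const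
  simp only [c20, Matrix.of_apply]
  exact ((((e _ _).sub (continuousOn_const.mul (e _ _))).sub
    (continuousOn_const.mul (e _ _))).sub (e _ _)).div_const _

/-- A linear form which vanishes on the alternating forms without `(2,0)`-part. -/
theorem lin_bound {φ : L2 d →ₗ[ℂ] ℂ}
    (h0 : ∀ a : L2 d, (∀ u v, a u v = -a v u) → c20 a = 0 → φ a = 0) {C : ℝ}
    (hC : ∀ j k, ‖φ (tf (Matrix.single j k 1))‖ ≤ C) {a : L2 d} (ha : ∀ u v, a u v = -a v u) :
    ‖φ a‖ ≤ C * ∑ j, ∑ k, ‖c20 a j k‖ := by
  have hs := H624.HK.c20_skew ha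
  have h1 : φ a = φ (tf (c20 a)) := by
    have h2 := h0 (a - tf (c20 a)) ?_ ?_
    · rw [LinearMap.map_sub φ a (tf (c20 a))] at h2
      exact sub_eq_zero.1 h2
    · intro u v
      rw [sub_apply, sub_apply, sub_apply, sub_apply, ha u v, H624.HK.tf_apply,
        H624.HK.tf_apply]
      have h3 : ∑ j, ∑ k, c20 a j k * (u j * v k) = -∑ j, ∑ k, c20 a j k * (v j * u k) := by
        rw [Finset.sum_comm, ← Finset.sum_neg_distrib]
        refine Finset.sum_congr rfl fun j _ => ?_
        rw [← Finset.sum_neg_distrib]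
        refine Finset.sum_congr rfl fun k _ => ?_
        have h4 : c20 a k j = -c20 a j k := by
          have := congrFun (congrFun hs j) k
          simpa using this
        rw [h4]
        ring
      rw [h3]
      ring
    · rw [c20_sub, H624.HK.c20_tf, sub_self]
  rw [h1, tf_sum, map_sum]
  refine (norm_sum_le _ _).trans ?_
  rw [Finset.mul_sum]
  refine Finset.sum_le_sum fun j _ => ?_
  rw [map_sum]
  refine (norm_sum_le _ _).trans ?_
  rw [Finset.mul_sum]
  refine Finset.sum_le_sum fun k _ => ?_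
  rw [map_smul, norm_smul, mul_comm]
  exact mul_le_mul_of_nonneg_right (hC j k) (norm_nonneg _)

theorem am_gm {x δ : ℝ} (hδ : 0 < δ) : x ≤ (δ + δ⁻¹ * x ^ 2) / 2 := by
  have h1 : 0 ≤ δ⁻¹ * (x - δ) ^ 2 := mul_nonneg (inv_nonneg.2 hδ.le) (sq_nonneg _)
  have h2 : δ⁻¹ * (x - δ) ^ 2 = δ⁻¹ * x ^ 2 - 2 * x + δ := by
    field_simp
    ring
  rw [h2] at h1
  linarith

variable {E Γ : Type} [TopologicalSpace E] [Group Γ] [MulAction Γ E]
  [ContinuousConstSMul Γ E] [Subsingleton Γ] {S : Sheets d E Γ}

/-- **Replacement of one factor.** -/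
theorem rep {F : Fin d → Fin S.N → Cm d → L2 d} {k₀ : Fin d} (hF : ∀ k, k ≠ k₀ → Cl2 S (F k))
    {α : Fin S.N → Cm d → L2 d} (hα : Cl2 S α)
    {h : Fin S.N → Cm d → Matrix (Fin d) (Fin d) ℂ} (hh : Cl2 S (ts h))
    (hHT : ∀ ε > 0, ∃ β : Fin S.N → Cm d → L1 d, F1On S univ β ∧
      ∑ i, ∫ z in S.P i, ∑ j, ∑ k, ‖(c20 (α i z - d1 (β i) z) - h i z) j k‖ ^ 2 < ε)
    (h0 : ∀ i, ∀ z ∈ ball (0 : Cm d) 3, ∀ a : L2 d, (∀ u v, a u v = -a v u) → c20 a = 0 →
      W (Function.update (fun k => F k i z) k₀ a) = 0) :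
    Wint S (Function.update F k₀ α) = Wint S (Function.update F k₀ (ts h)) := by
  classical
  -- the linear forms
  set φ : Fin S.N → Cm d → (L2 d →ₗ[ℂ] ℂ) := fun i z => Wl (rbp d) (fun k => F k i z) k₀ with hφ
  have hint : ∀ γ : Fin S.N → Cm d → L2 d, Wint S (Function.update F k₀ γ) =
      S.int fun i z => φ i z (γ i z) := by
    intro γ
    unfold Wint
    congr 1
    funext i z
    rw [upd_ev]
    rfl
  have hcont : ∀ i, ∀ γ : Cm d → L2 d, ContinuousOn γ (ball 0 3) →
      ContinuousOn (fun z => φ i z (γ z)) (ball 0 3) := by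
    intro i γ hγ
    have h1 : ContinuousOn (fun z => W fun k => (Function.update F k₀ fun _ => γ) k i z)
        (ball 0 3) := by
      refine cont_W fun k => ?_
      by_cases hk : k = k₀
      · subst hk
        rw [Function.update_self]; exact hγ
      · rw [Function.update_of_ne hk]
        exact cl2_cont (hF k hk) i
    refine h1.congr fun z _ => ?_
    show φ i z (γ z) = W fun k => (Function.update F k₀ fun _ => γ) k i z
    rw [upd_ev]
    rfl
  -- the bound
  obtain ⟨C, hC0, hC⟩ : ∃ C : ℝ, 0 ≤ C ∧ ∀ i, ∀ z ∈ S.P i, ∀ j k,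
      ‖φ i z (tf (Matrix.single j k 1))‖ ≤ C := by
    have h1 : ∀ i j k, ∃ C : ℝ, ∀ z ∈ closedBall (0 : Cm d) 1,
        ‖φ i z (tf (Matrix.single j k 1))‖ ≤ C := by
      intro i j k
      have h2 := (hcont i (fun _ => tf (Matrix.single j k 1)) continuousOn_const).mono
        (closedBall_subset_ball (by norm_num : (1 : ℝ) < 3))
      exact (isCompact_closedBall (0 : Cm d) 1).exists_bound_of_continuousOn h2
    choose C hC using h1
    refine ⟨∑ i, ∑ j, ∑ k, |C i j k|, Finset.sum_nonneg fun i _ => Finset.sum_nonneg fun j _ =>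
      Finset.sum_nonneg fun k _ => abs_nonneg _, fun i z hz j k => ?_⟩
    have hz1 : z ∈ closedBall (0 : Cm d) 1 := by
      have : ‖z‖ < 1 := hz.1
      rw [mem_closedBall, dist_zero_right]
      exact this.le
    calc ‖φ i z (tf (Matrix.single j k 1))‖ ≤ C i j k := hC i j k z hz1
      _ ≤ |C i j k| := le_abs_self _
      _ ≤ ∑ k, |C i j k| := Finset.single_le_sum (f := fun k => |C i j k|)
          (fun k _ => abs_nonneg _) (Finset.mem_univ k)
      _ ≤ ∑ j, ∑ k, |C i j k| := Finset.single_le_sum (f := fun j => ∑ k, |C i j k|)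
          (fun j _ => Finset.sum_nonneg fun k _ => abs_nonneg _) (Finset.mem_univ j)
      _ ≤ ∑ i, ∑ j, ∑ k, |C i j k| := Finset.single_le_sum
          (f := fun i => ∑ j, ∑ k, |C i j k|) (fun i _ => Finset.sum_nonneg fun j _ =>
            Finset.sum_nonneg fun k _ => abs_nonneg _) (Finset.mem_univ i)
  have hfin : ∀ i, IntegrableOn (fun _ : Cm d => (1 : ℝ)) (S.P i) := fun i =>
    integrableOn_P S i continuousOn_const
  -- the estimate
  have key : ∀ δ : ℝ, 0 < δ →
      ‖Wint S (Function.update F k₀ α) - Wint S (Function.update F k₀ (ts h))‖ ≤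
        δ * (C / 2 * ((d * d : ℝ) * ∑ i, ∫ _ in S.P i, (1 : ℝ)) + C / 2) := by
    intro δ hδ
    obtain ⟨β, hβ, hε⟩ := hHT (δ ^ 2) (by positivity)
    have hdβ : ∀ i, ContinuousOn (d1 (β i)) (ball 0 3) := fun i =>
      ((f1_of hβ).dx.smooth i).continuousOn
    have hαc := cl2_cont hα
    have hhc := cl2_cont hh
    set g : Fin S.N → Cm d → L2 d := fun i z => α i z - d1 (β i) z - ts h i z with hg
    have hgc : ∀ i j k, ContinuousOn (fun z => c20 (g i z) j k) (ball 0 3) := fun i j k =>
      (((cont_c20 (hαc i) j k).sub (cont_c20 (hdβ i) j k)).sub (cont_c20 (hhc i) j k)).congr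
        fun z _ => by
          show c20 (α i z - d1 (β i) z - ts h i z) j k = _
          rw [c20_sub, c20_sub]
          rfl
    have e1 : S.int (fun i z => φ i z (d1 (β i) z)) = 0 := by
      rw [← hint]
      exact stokesW S (α := F) k₀ (f1_of hβ) (fun k hk => f2_of (hF k hk).toF2On)
        (fun k hk i z hz => (hF k hk).closed i z hz)
    have e2 : Wint S (Function.update F k₀ α) - Wint S (Function.update F k₀ (ts h)) =
        S.int fun i z => φ i z (g i z) := by
      rw [hint, hint]
      have e3 : S.int (fun i z => φ i z (g i z)) = S.int (fun i z => φ i z (α i z)) -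
          S.int (fun i z => φ i z (d1 (β i) z)) - S.int (fun i z => φ i z (ts h i z)) := by
        unfold Sheets.int
        rw [← Finset.sum_sub_distrib, ← Finset.sum_sub_distrib]
        refine Finset.sum_congr rfl fun i _ => ?_
        have i1 := integrableOn_P S i (hcont i _ (hαc i))
        have i2 := integrableOn_P S i (hcont i _ (hdβ i))
        have i3 := integrableOn_P S i (hcont i _ (hhc i))
        have i12 : IntegrableOn (fun z => φ i z (α i z) - φ i z (d1 (β i) z)) (S.P i) :=
          i1.sub i2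
        rw [← integral_sub i1 i2, ← integral_sub i12 i3]
        refine setIntegral_congr_fun (meas_P S i) fun z _ => ?_
        show φ i z (α i z - d1 (β i) z - ts h i z) = _
        rw [LinearMap.map_sub (φ i z) (α i z - d1 (β i) z) (ts h i z),
          LinearMap.map_sub (φ i z) (α i z) (d1 (β i) z)]
      rw [e3, e1, sub_zero]
    have hcg : ∀ i z j k, c20 (g i z) j k = (c20 (α i z - d1 (β i) z) - h i z) j k := by
      intro i z j k
      have : c20 (g i z) = c20 (α i z - d1 (β i) z) - h i z := by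
        show c20 (α i z - d1 (β i) z - ts h i z) = _
        rw [c20_sub]
        congr 1
        exact H624.HK.c20_tf _
      rw [this]
    have halt : ∀ i, ∀ z ∈ ball (0 : Cm d) 3, ∀ u v, g i z u v = -g i z v u := by
      intro i z hz u v
      have a1 := hα.alt i z hz (mem_univ _) u v
      have a2 := hh.alt i z hz (mem_univ _) u v
      have a3 : d1 (β i) z u v = -d1 (β i) z v u := by
        show fderiv ℝ (β i) z u v - fderiv ℝ (β i) z v u =
          -(fderiv ℝ (β i) z v u - fderiv ℝ (β i) z u v)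
        ring
      rw [hg]
      simp only [sub_apply]
      rw [a1, a2, a3]
      ring
    have hq : ∀ i, IntegrableOn (fun z => ∑ j, ∑ k, ‖c20 (g i z) j k‖ ^ 2) (S.P i) := fun i =>
      integrableOn_P S i (continuousOn_finsetSum _ fun j _ => continuousOn_finsetSum _ fun k _ =>
        (hgc i j k).norm.pow 2)
    rw [e2]
    unfold Sheets.int
    calc ‖∑ i, ∫ z in S.P i, φ i z (g i z)‖ ≤ ∑ i, ‖∫ z in S.P i, φ i z (g i z)‖ :=
          norm_sum_le _ _
      _ ≤ ∑ i, ∫ z in S.P i, C / 2 * ((d * d : ℝ) * δ * 1 +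
            δ⁻¹ * ∑ j, ∑ k, ‖c20 (g i z) j k‖ ^ 2) := by
          refine Finset.sum_le_sum fun i _ => ?_
          refine norm_integral_le_of_norm_le ?_ ?_
          · exact (((hfin i).const_mul _).add ((hq i).const_mul _)).const_mul _
          · refine (ae_restrict_iff' (meas_P S i)).2 (Filter.Eventually.of_forall fun z hz => ?_)
            have hz3 := P_subset3 S i hz
            refine (lin_bound (fun a ha h20 => h0 i z hz3 a ha h20) (hC i z hz)
              (halt i z hz3)).trans ?_
            have h5 : ∑ j, ∑ k, ‖c20 (g i z) j k‖ ≤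
                ∑ j : Fin d, ∑ k : Fin d, (δ + δ⁻¹ * ‖c20 (g i z) j k‖ ^ 2) / 2 :=
              Finset.sum_le_sum fun j _ => Finset.sum_le_sum fun k _ => am_gm hδ
            refine (mul_le_mul_of_nonneg_left h5 hC0).trans (le_of_eq ?_)
            simp only [← Finset.sum_div, Finset.sum_add_distrib, Finset.sum_const,
              Finset.card_univ, Fintype.card_fin, nsmul_eq_mul, ← Finset.mul_sum]
            ring
      _ = C / 2 * ((d * d : ℝ) * δ * ∑ i, ∫ _ in S.P i, (1 : ℝ)) +
            C / 2 * (δ⁻¹ * ∑ i, ∫ z in S.P i, ∑ j, ∑ k, ‖c20 (g i z) j k‖ ^ 2) := by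
          rw [Finset.mul_sum, Finset.mul_sum, Finset.mul_sum, Finset.mul_sum,
            ← Finset.sum_add_distrib]
          refine Finset.sum_congr rfl fun i _ => ?_
          have j1 : IntegrableOn (fun _ : Cm d => (d * d : ℝ) * δ * 1) (S.P i) :=
            (hfin i).const_mul _
          have j2 : IntegrableOn (fun z => δ⁻¹ * ∑ j, ∑ k, ‖c20 (g i z) j k‖ ^ 2) (S.P i) :=
            (hq i).const_mul _
          rw [integral_const_mul, integral_add j1 j2, integral_const_mul, integral_const_mul]
          ring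
      _ ≤ δ * (C / 2 * ((d * d : ℝ) * ∑ i, ∫ _ in S.P i, (1 : ℝ)) + C / 2) := by
          have h6 : ∑ i, ∫ z in S.P i, ∑ j, ∑ k, ‖c20 (g i z) j k‖ ^ 2 ≤ δ ^ 2 := by
            refine le_of_lt (lt_of_eq_of_lt ?_ hε)
            refine Finset.sum_congr rfl fun i _ => ?_
            refine setIntegral_congr_fun (meas_P S i) fun z _ => ?_
            simp only [hcg]
          have h7 : δ⁻¹ * ∑ i, ∫ z in S.P i, ∑ j, ∑ k, ‖c20 (g i z) j k‖ ^ 2 ≤ δ := by
            refine (mul_le_mul_of_nonneg_left h6 (inv_nonneg.2 hδ.le)).trans (le_of_eq ?_)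
            rw [pow_two, ← mul_assoc, inv_mul_cancel₀ hδ.ne', one_mul]
          have h8 := mul_le_mul_of_nonneg_left h7 (by positivity : (0 : ℝ) ≤ C / 2)
          refine (add_le_add_right h8 _).trans (le_of_eq ?_)
          ring
  -- the limit
  have hlim : ‖Wint S (Function.update F k₀ α) - Wint S (Function.update F k₀ (ts h))‖ ≤ 0 := by
    refine le_of_forall_pos_le_add fun ε hε => ?_
    rw [zero_add]
    set K : ℝ := C / 2 * ((d * d : ℝ) * ∑ i, ∫ _ in S.P i, (1 : ℝ)) + C / 2 with hK
    have h1 := key (ε / (|K| + 1)) (by positivity)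
    refine h1.trans ?_
    rw [div_mul_eq_mul_div, div_le_iff₀ (by positivity)]
    exact mul_le_mul_of_nonneg_left (by linarith [le_abs_self K]) hε.le
  exact sub_eq_zero.1 (norm_le_zero_iff.1 hlim)

end Vale.Agent.P281.H864.HK
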