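import Vale.Agent.P281.H864.HK.Step
import Vale.Agent.P281.H83.HK.Spec

/-!
# P281, project T-HK, block RA (helper864): the ratio `∫ |det s| / B(s, conj s)^(d/2)` is constant
-/

open Set Filter Metric MeasureTheory
open scoped Topology ContDiff ComplexConjugate ComplexOrder

noncomputable section

namespace Vale.Agent.P281.H864.HK

open Vale.Agent.P281.H64 (Cm)
open Vale.Agent.P281.H64.TK Vale.Agent.P281.H303.K
open Vale.Agent.P281.H64.TK.TS (L1 L2 F1On F2On Cl2 Exact IsD1 Pull2 Dif Real2 Tr d1 PullStmt)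
open Vale.Agent.P281.H83.HK (tf cj c20 c02 c11 h11 ts cjs kw bW W3 abc kf Hol2 Gen2 volS HTStmt
  WDetStmt WValStmt FormsStmt RatioStmt)
open Vale.Agent.P281.H191.HK (f3 f3_apply bW_eq bW_comm bW_class bW_pull exact_self)

section alg
variable {d : ℕ}

theorem tf_alt' {m : Matrix (Fin d) (Fin d) ℂ} (hm : m.transpose = -m) (u v : Cm d) :
    tf m u v = -tf m v u := by
  rw [H624.HK.tf_apply, H624.HK.tf_apply, Finset.sum_comm, ← Finset.sum_neg_distrib]
  refine Finset.sum_congr rfl fun j _ => ?_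
  rw [← Finset.sum_neg_distrib]
  refine Finset.sum_congr rfl fun k _ => ?_
  have h : m k j = -m j k := by
    have := congrFun (congrFun hm j) k
    simpa using this
  rw [h]
  ring

theorem c20_cj (m : Matrix (Fin d) (Fin d) ℂ) : c20 (cj (tf m)) = 0 := by
  ext j k
  have h := bc_20 (cj (tf m)) j k
  rw [bc_cj m _ _ (Or.inl rfl)] at h
  have h2 : c20 (cj (tf m)) j k = 0 := by
    have h4 : (4 : ℂ) ≠ 0 := by norm_num
    exact (mul_eq_zero.1 h.symm).resolve_left h4
  rw [h2]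
  rfl

theorem c11_cj (m : Matrix (Fin d) (Fin d) ℂ) : c11 (cj (tf m)) = 0 := by
  ext j k
  simp only [c11, Matrix.of_apply, H624.HK.cj_apply, H624.HK.rb0, H624.HK.rb1, H624.HK.tf_rb,
    map_mul, map_one, Complex.conj_I, Matrix.zero_apply]
  linear_combination (conj (m j k) / 4) * Complex.I_sq

/-- Only the `(2,0)`-part of `a` matters in `a ∧ conj s ∧ ω^(d-2)`. -/
theorem W3_zero (hW : WValStmt) (hd : 2 ≤ d) {w m : Matrix (Fin d) (Fin d) ℂ} (hw : w.PosDef)
    (hm : m.transpose = -m) {a : L2 d} (ha : ∀ u v, a u v = -a v u) (h0 : c20 a = 0) :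
    W3 a (cj (tf m)) (kf w) = 0 := by
  rw [hW d a (cj (tf m)) w hd ha (fun u v => ?_) hw]
  · simp only [h11, c11_cj, c20_cj, h0, smul_zero, Matrix.mul_zero, Matrix.zero_mul,
      Matrix.trace_zero, mul_zero, sub_zero, add_zero]
  · rw [H624.HK.cj_apply, H624.HK.cj_apply, tf_alt' hm u v, map_neg]

end alg

section
variable {d : ℕ} {E Γ : Type} [TopologicalSpace E] [Group Γ] [MulAction Γ E]
  [ContinuousConstSMul Γ E] [Subsingleton Γ] {S : Sheets d E Γ}
  {s : Fin S.N → Cm d → Matrix (Fin d) (Fin d) ℂ}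

theorem int_conj (D D' : Fin S.N → Cm d → ℂ)
    (h : ∀ i, ∀ z ∈ ball (0 : Cm d) 3, D' i z = conj (D i z)) :
    S.int D' = conj (S.int D) := by
  rw [int_congr S h]
  unfold Sheets.int
  rw [map_sum]
  exact Finset.sum_congr rfl fun i _ => integral_conj

/-- `∫ s^n ∧ conj s^n` is the volume. -/
theorem wint_vol {κ : ℝ} (hκ : ∀ m : Matrix (Fin d) (Fin d) ℂ, m.transpose = -m →
      Vale.Agent.P281.H83.HK.W (fun i : Fin d => if 2 * i.val < d then tf m else cj (tf m)) =
        ((κ * ‖m.det‖ : ℝ) : ℂ)) (hs : Hol2 S s) {n : ℕ} (hd : d = 2 * n)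
    (b : Fin S.N → Cm d → L2 d) :
    Wint S (fam (ts s) b (cjs (ts s)) n) = κ * ((volS S s : ℝ) : ℂ) ∧
      S.int (fun i z => ((‖(s i z).det‖ : ℝ) : ℂ)) = ((volS S s : ℝ) : ℂ) := by
  have h2 : S.int (fun i z => ((‖(s i z).det‖ : ℝ) : ℂ)) = ((volS S s : ℝ) : ℂ) := by
    have h3 := int_conj (S := S) (fun i z => ((‖(s i z).det‖ : ℝ) : ℂ))
      (fun i z => ((‖(s i z).det‖ : ℝ) : ℂ)) fun i z _ => (Complex.conj_ofReal _).symm
    exact (Complex.conj_eq_iff_re.1 h3.symm).symm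
  refine ⟨?_, h2⟩
  rw [← h2]
  have h4 : Wint S (fam (ts s) b (cjs (ts s)) n) =
      S.int fun i z => (κ : ℂ) * ((‖(s i z).det‖ : ℝ) : ℂ) := by
    refine int_congr S fun i z hz => ?_
    rw [← Complex.ofReal_mul, ← hκ (s i z) (hs.alt i z hz), ← W_eq]
    congr 1
    funext k
    have e1 : 2 * k.val < d → k.val < n := by omega
    unfold fam
    by_cases hk : 2 * k.val < d
    · rw [if_pos hk, if_pos (e1 hk), if_pos hk]
      rfl
    · rw [if_neg hk, if_neg hk]
      rfl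
  rw [h4]
  unfold Sheets.int
  rw [Finset.mul_sum]
  exact Finset.sum_congr rfl fun i _ => integral_const_mul _ _

end

/-- **RA**. -/
theorem ratio (hHT : HTStmt) (hV : WValStmt) (hW : WDetStmt) (hFo : FormsStmt)
    (hPull : PullStmt) : RatioStmt := by
  intro d E Γ _ _ _ _ _ _ _ S E' Γ' _ _ _ _ _ _ _ S' τ w w' s s' α k hd hτ hw hw' hs hs' hα hαp
    hk hkp hke hne
  have hd0 : 0 < d := by omega
  obtain ⟨κ, hκ0, hκ⟩ := hW d
  rcases Nat.even_or_odd d with he | ho
  swap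
  · -- odd dimension: the determinants vanish
    have h1 : ∀ m : Matrix (Fin d) (Fin d) ℂ, m.transpose = -m → m.det = 0 := by
      intro m hm
      have h2 : m.det = -m.det := by
        conv_lhs => rw [← Matrix.det_transpose, hm, Matrix.det_neg, Fintype.card_fin,
          ho.neg_one_pow]
        ring
      have h3 : (2 : ℂ) * m.det = 0 := by linear_combination h2
      exact (mul_eq_zero.1 h3).resolve_left two_ne_zero
    have h4 : volS S s = 0 := by
      have : S.int (fun i z => ((‖(s i z).det‖ : ℝ) : ℂ)) = S.int fun _ _ => 0 :=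
        int_congr S fun i z hz => by rw [h1 _ (hs.form.alt i z hz)]; simp
      rw [volS, this]
      simp [Sheets.int]
    have h5 : volS S' s' = 0 := by
      have : S'.int (fun i z => ((‖(s' i z).det‖ : ℝ) : ℂ)) = S'.int fun _ _ => 0 :=
        int_congr S' fun i z hz => by rw [h1 _ (hs'.form.alt i z hz)]; simp
      rw [volS, this]
      simp [Sheets.int]
    rw [h4, h5]
    ring
  obtain ⟨n, hn⟩ := he
  have hdn : d = 2 * n := by omega
  -- the forms
  obtain ⟨f1, f2, f3'⟩ := hFo d E Γ S hd0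
  obtain ⟨g1, g2, g3⟩ := hFo d E' Γ' S' hd0
  have cs := f1 s hs.form
  have cs' := g1 s' hs'.form
  have ccs := f3' _ cs
  have ccs' := g3 _ cs'
  obtain ⟨cw, rw⟩ := f2 w hw
  obtain ⟨cw', rw'⟩ := g2 w' hw'
  -- the pull-back of `s` to `E'`
  obtain ⟨hτ', hP1, hP2, -⟩ := hPull d E' Γ' S' E Γ S τ.symm hd0
    (hPull d E Γ S E' Γ' S' τ hd0 hτ).1
  obtain ⟨γ, hγ, hγp⟩ := hP1 (ts s) cs
  have hγp' : Pull2 S S' τ (ts s) γ := by
    have := hP2 γ (ts s) hγ cs hγp
    rwa [Homeomorph.symm_symm] at this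
  -- the harmonic parts
  obtain ⟨h, hh, hH⟩ := hHT d E Γ S w α hd hw hα
  obtain ⟨h', hh', hH'⟩ := hHT d E' Γ' S' w' γ hd hw' hγ
  have hHs : Harm S α h := fun ε hε => by
    obtain ⟨β, b1, -, b3⟩ := hH ε hε
    exact ⟨β, b1, b3⟩
  have hHs' : Harm S' γ h' := fun ε hε => by
    obtain ⟨β, b1, -, b3⟩ := hH' ε hε
    exact ⟨β, b1, b3⟩
  obtain ⟨c, hc⟩ := hs.unique h hh
  obtain ⟨c', hc'⟩ := hs'.unique h' hh'
  have tsm : ∀ {N : ℕ} {a b : Fin N → Cm d → Matrix (Fin d) (Fin d) ℂ} {c : ℂ},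
      (∀ i, ∀ z ∈ ball (0 : Cm d) 3, a i z = c • b i z) →
      ∀ i, ∀ z ∈ ball (0 : Cm d) 3, ts a i z = c • ts b i z := by
    intro N a b c hab i z hz
    show tf (a i z) = c • tf (b i z)
    rw [hab i z hz]
    ext u v
    rw [smul_apply, smul_apply, H624.HK.tf_apply, H624.HK.tf_apply, smul_eq_mul,
      Finset.mul_sum]
    refine Finset.sum_congr rfl fun j _ => ?_
    rw [Finset.mul_sum]
    refine Finset.sum_congr rfl fun l _ => ?_
    rw [Matrix.smul_apply, smul_eq_mul, mul_assoc]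
  -- the volumes
  obtain ⟨v1, -⟩ := wint_vol hκ hs.form hdn α
  obtain ⟨v2, -⟩ := wint_vol hκ hs'.form hdn γ
  have A1 : Wint S (fam (ts s) α (cjs (ts s)) 0) = c ^ n * (κ * ((volS S s : ℝ) : ℂ)) := by
    rw [stepA hdn hα cs ccs (f1 h hh) hHs (tsm hc) n le_rfl, v1]
  have A2 : Wint S' (fam (ts s') γ (cjs (ts s')) 0) = c' ^ n * (κ * ((volS S' s' : ℝ) : ℂ)) := by
    rw [stepA hdn hγ cs' ccs' (g1 h' hh') hHs' (tsm hc') n le_rfl, v2]
  have B1 : bW S α (cjs (ts s)) (kw w) = c * bW S (ts s) (cjs (ts s)) (kw w) :=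
    stepB hd0 hα ccs cw (f1 h hh) hHs (tsm hc) fun i z hz a ha h0 =>
      W3_zero hV hd (hw.posDef i z hz) (hs.form.alt i z hz) ha h0
  have B2 : bW S' γ (cjs (ts s')) (kw w') = c' * bW S' (ts s') (cjs (ts s')) (kw w') :=
    stepB hd0 hγ ccs' cw' (g1 h' hh') hHs' (tsm hc') fun i z hz a ha h0 =>
      W3_zero hV hd (hw'.posDef i z hz) (hs'.form.alt i z hz) ha h0
  -- conjugates
  have pcj : Pull2 S S' τ (cjs (ts s)) (cjs γ) := fun i j z hz z' hz' ψ hψ u v => by
    show conj (ts s i z u v) = conj (γ j z' _ _)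
    rw [hγp' i j z hz z' hz' ψ hψ u v]
  have ccγ := g3 _ hγ
  -- first comparison
  have C1 : Wint S (fam (ts s) α (cjs (ts s)) 0) =
      conj (Wint S' (fam (ts s') γ (cjs (ts s')) 0)) := by
    have e1 : Wint S (fam (ts s) α (cjs (ts s)) 0) =
        Wint S' (fam (ts s') (ts s') (cjs γ) 0) := by
      refine wint_pull hd0 hτ (fam_prop cs hα ccs 0) (fam_prop cs' cs' ccγ 0) fun l => ?_
      unfold fam
      rw [if_neg (Nat.not_lt_zero _), if_neg (Nat.not_lt_zero _)]
      split_ifs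
      · exact hαp
      · exact pcj
    rw [e1]
    have e2 : Wint S' (fam (ts s') γ (cjs (ts s')) 0) =
        Wint S' (fun l => fam (ts s') γ (cjs (ts s')) 0 (Fin.revPerm l)) := by
      unfold Wint
      congr 1
      funext i z
      exact (W_perm (fun l => fam (ts s') γ (cjs (ts s')) 0 l i z) Fin.revPerm).symm
    rw [e2]
    refine int_conj _ _ fun i z hz => ?_
    refine W_conj fun l u v => ?_
    have hr : (Fin.revPerm l).val = d - 1 - l.val := by
      rw [Fin.revPerm_apply, Fin.val_rev]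
      omega
    simp only [fam, Nat.not_lt_zero, if_false, hr]
    by_cases hl : 2 * l.val < d
    · rw [if_pos hl, if_neg (by omega)]
      show ts s' i z u v = conj (conj (ts s' i z u v))
      rw [Complex.conj_conj]
    · rw [if_neg hl, if_pos (by omega)]
      rfl
  -- second comparison
  have C2 : bW S α (cjs (ts s)) (kw w) = conj (bW S' γ (cjs (ts s')) (kw w')) := by
    have e1 : bW S α (cjs (ts s)) (kw w) = bW S α (cjs (ts s)) k :=
      (bW_class hα ccs hk hα ccs cw (exact_self α) (exact_self _) hke).symm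
    have e2 : bW S α (cjs (ts s)) k = bW S' (ts s') (cjs γ) (kw w') :=
      bW_pull hd0 hτ hα ccs hk cs' ccγ cw' hαp pcj hkp
    have e3 : bW S' (ts s') (cjs γ) (kw w') = conj (bW S' (cjs (ts s')) γ (kw w')) := by
      refine int_conj _ _ fun i z hz => ?_
      refine W3_conj (fun u v => ?_) (fun u v => ?_) fun u v => ?_
      · show ts s' i z u v = conj (conj (ts s' i z u v))
        rw [Complex.conj_conj]
      · rfl
      · exact (Complex.conj_eq_iff_im.2 (rw' i z hz u v)).symm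
    rw [e1, e2, e3, bW_comm (by omega)]
  -- reality of `B(s, conj s)`
  have hre : ∀ {E Γ : Type} [TopologicalSpace E] [Group Γ] [Subsingleton Γ]
      [MulAction Γ E] [ContinuousConstSMul Γ E] {S : Sheets d E Γ}
      {s w : Fin S.N → Cm d → Matrix (Fin d) (Fin d) ℂ}, Real2 S (kw w) →
      conj (bW S (ts s) (cjs (ts s)) (kw w)) = bW S (ts s) (cjs (ts s)) (kw w) := by
    intro E Γ _ _ _ _ _ S s w hr
    have h1 : bW S (cjs (ts s)) (ts s) (kw w) = conj (bW S (ts s) (cjs (ts s)) (kw w)) := by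
      refine int_conj _ _ fun i z hz => ?_
      refine W3_conj (fun u v => rfl) (fun u v => ?_) fun u v => ?_
      · show ts s i z u v = conj (conj (ts s i z u v))
        rw [Complex.conj_conj]
      · exact (Complex.conj_eq_iff_im.2 (hr i z hz u v)).symm
    rw [← h1, bW_comm (by omega)]
  have r1 := Complex.conj_eq_iff_re.1 (hre (S := S) (s := s) (w := w) rw)
  have r2 := Complex.conj_eq_iff_re.1 (hre (S := S') (s := s') (w := w') rw')
  set b : ℝ := (bW S (ts s) (cjs (ts s)) (kw w)).re with hb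
  set b' : ℝ := (bW S' (ts s') (cjs (ts s')) (kw w')).re with hb'
  -- conclusion
  rw [← r1] at B1
  rw [← r2] at B2
  rw [A1, A2] at C1
  rw [B1, B2] at C2
  rw [B1] at hne
  have hc0 : c ≠ 0 := left_ne_zero_of_mul hne
  simp only [map_mul, map_pow, Complex.conj_ofReal] at C1 C2
  have hκc : (κ : ℂ) ≠ 0 := by exact_mod_cast hκ0.ne'
  have D1 : (c * (b : ℂ)) ^ n = (conj c' * (b' : ℂ)) ^ n := by rw [C2]
  rw [mul_pow, mul_pow] at D1
  have D2 : c ^ n * ((κ : ℂ) * (((volS S s : ℝ) : ℂ) * (b' : ℂ) ^ n)) =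
      c ^ n * ((κ : ℂ) * (((volS S' s' : ℝ) : ℂ) * (b : ℂ) ^ n)) := by
    linear_combination (b' : ℂ) ^ n * C1 - (κ : ℂ) * ((volS S' s' : ℝ) : ℂ) * D1
  have D3 := mul_left_cancel₀ hκc (mul_left_cancel₀ (pow_ne_zero n hc0) D2)
  have D4 : volS S s * b' ^ n = volS S' s' * b ^ n := by exact_mod_cast D3
  have D5 : b' ^ d = (b' ^ n) ^ 2 := by rw [hdn, mul_comm 2 n, pow_mul]
  have D6 : b ^ d = (b ^ n) ^ 2 := by rw [hdn, mul_comm 2 n, pow_mul]
  rw [D5, D6, ← mul_pow, ← mul_pow, D4]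

end Vale.Agent.P281.H864.HK
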