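import Vale.Agent.P281.H864.HK.WInt
import Vale.Agent.P281.H83.HK.Spec

/-!
# P281, project T-HK (helper864): blocks W1, W2, I1, I2
-/

open Set Filter Metric MeasureTheory
open scoped Topology ContDiff ComplexConjugate

noncomputable section

namespace Vale.Agent.P281.H864.HK

open Vale.Agent.P281.H64 (Cm)
open Vale.Agent.P281.H64.TK Vale.Agent.P281.H303.K
open Vale.Agent.P281.H64.TK.TS (L1 L2 F1On F2On Cl2 Exact IsD1 Pull2 Dif Real2 Tr d1)
open Vale.Agent.P281.H83.HK (WLinStmt WPullStmt WStokesStmt WInvStmt)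
open Vale.Agent.P281.H125.TS (f1_of f2_of)

/-- **W1**. -/
theorem wLin : WLinStmt := by
  intro d a i x y c τ
  simp only [W_eq]
  exact ⟨W_add a i x y, W_smul a i c x, W_perm a τ⟩

/-- **W2**. -/
theorem wPull : WPullStmt := by
  intro d L a a' h
  rw [W_eq, W_eq]
  exact W_pull L h

/-- **I1**. -/
theorem wStokes : WStokesStmt := by
  intro d E Γ _ _ _ _ _ _ S a j β h hβ
  have h1 := stokesW S (α := a) j (f1_of hβ) (fun k hk => f2_of (h k hk).toF2On)
    (fun k hk i z hz => (h k hk).closed i z hz)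
  rw [← h1]
  refine int_congr S fun i z hz => ?_
  rw [W_eq]
  congr 1
  rw [upd_ev]
  rfl

/-- **I2**. -/
theorem wInv : WInvStmt := by
  intro d E Γ _ _ _ _ _ _ S E' Γ' _ _ _ _ _ _ S' τ a a' hd hτ h h' hp
  simp only [W_eq]
  exact wint_pull hd hτ h h' hp

end Vale.Agent.P281.H864.HK
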