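import Vale.Agent.P281.H864.HK.WStokes
import Vale.Agent.P281.H83.HK.Defs

/-!
# P281, project T-HK, block W (helper864): the top product in the letters of `H83/HK/Defs`

`H83.HK.W` is the same density; `wI S α = ∫ α_1 ∧ ⋯ ∧ α_d`; it depends on the classes only and is
invariant under a diffeomorphism; the same for `bW`.
-/

open Set Filter Metric MeasureTheory
open scoped Topology ContDiff ComplexConjugate

noncomputable section

namespace Vale.Agent.P281.H864.HK

open Vale.Agent.P281.H64 (Cm)
open Vale.Agent.P281.H64.TK Vale.Agent.P281.H303.K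
open Vale.Agent.P281.H64.TK.TS (L1 L2 F1On F2On Cl2 Exact IsD1 Pull2 Dif Real2 Tr)
open Vale.Agent.P281.H83.HK (bW W3 abc)

/-! ### the density -/

section dens
variable {d : ℕ}

theorem rb_eq (q : Fin d × Fin 2) : Vale.Agent.P281.H83.HK.rb q = rbp d q := by
  obtain ⟨k, l⟩ := q
  rw [rbp_apply, Vale.Agent.P281.H83.HK.rb]
  fin_cases l
  · rfl
  · rfl

/-- The two definitions agree. -/
theorem W_eq (a : Fin d → L2 d) : Vale.Agent.P281.H83.HK.W a = W a := by
  rw [Vale.Agent.P281.H83.HK.W, W, Wv, Fintype.card_fin, one_div, inv_pow]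
  simp only [rb_eq, pr]

theorem W_perm (a : Fin d → L2 d) (τ : Equiv.Perm (Fin d)) : W (fun i => a (τ i)) = W a :=
  Wv_perm a τ _

theorem W_add (a : Fin d → L2 d) (i : Fin d) (b c : L2 d) :
    W (Function.update a i (b + c)) = W (Function.update a i b) + W (Function.update a i c) :=
  Wv_add _ a i b c

theorem W_sub (a : Fin d → L2 d) (i : Fin d) (b c : L2 d) :
    W (Function.update a i (b - c)) = W (Function.update a i b) - W (Function.update a i c) :=
  Wv_sub _ a i b c

theorem W_smul (a : Fin d → L2 d) (i : Fin d) (c : ℂ) (b : L2 d) :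
    W (Function.update a i (c • b)) = c * W (Function.update a i b) := Wv_smul _ a i c b

theorem W_conj {a a' : Fin d → L2 d} (h : ∀ i u v, a' i u v = conj (a i u v)) :
    W a' = conj (W a) := Wv_conj h _

theorem abc_swap (a b c : L2 d) (h : 1 < d) :
    (fun i => abc a b c (Equiv.swap ⟨0, by omega⟩ ⟨1, h⟩ i)) = abc b a c := by
  funext i
  by_cases h0 : i = ⟨0, by omega⟩
  · subst h0
    rw [Equiv.swap_apply_left]
    simp [abc]
  · by_cases h1 : i = ⟨1, h⟩
    · subst h1
      rw [Equiv.swap_apply_right]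
      simp [abc]
    · rw [Equiv.swap_apply_of_ne_of_ne h0 h1]
      have e0 : i.val ≠ 0 := fun e => h0 (Fin.ext e)
      have e1 : i.val ≠ 1 := fun e => h1 (Fin.ext e)
      simp [abc, e0, e1]

/-- `W3` is symmetric (`d ≥ 2`). -/
theorem W3_comm (h : 1 < d) (a b c : L2 d) : W3 a b c = W3 b a c := by
  rw [W3, W3, W_eq, W_eq, ← abc_swap a b c h, W_perm]

theorem abc_upd0 (a b c : L2 d) (h : 0 < d) :
    abc a b c = Function.update (abc 0 b c) ⟨0, h⟩ a := by
  funext i
  by_cases h0 : i = ⟨0, h⟩
  · subst h0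
    rw [Function.update_self]
    simp [abc]
  · rw [Function.update_of_ne h0]
    have e0 : i.val ≠ 0 := fun e => h0 (Fin.ext e)
    simp [abc, e0]

theorem W3_add_left (h : 0 < d) (a a' b c : L2 d) : W3 (a + a') b c = W3 a b c + W3 a' b c := by
  rw [W3, W3, W3, W_eq, W_eq, W_eq, abc_upd0 (a + a') b c h, abc_upd0 a b c h,
    abc_upd0 a' b c h, W_add]

theorem W3_sub_left (h : 0 < d) (a a' b c : L2 d) : W3 (a - a') b c = W3 a b c - W3 a' b c := by
  rw [W3, W3, W3, W_eq, W_eq, W_eq, abc_upd0 (a - a') b c h, abc_upd0 a b c h,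
    abc_upd0 a' b c h, W_sub]

theorem W3_smul_left (h : 0 < d) (x : ℂ) (a b c : L2 d) : W3 (x • a) b c = x * W3 a b c := by
  rw [W3, W3, W_eq, W_eq, abc_upd0 (x • a) b c h, abc_upd0 a b c h, W_smul]

theorem W3_add_right (h : 1 < d) (a b b' c : L2 d) : W3 a (b + b') c = W3 a b c + W3 a b' c := by
  rw [W3_comm h, W3_add_left (by omega), W3_comm h b, W3_comm h b']

theorem W3_sub_right (h : 1 < d) (a b b' c : L2 d) : W3 a (b - b') c = W3 a b c - W3 a b' c := by
  rw [W3_comm h, W3_sub_left (by omega), W3_comm h b, W3_comm h b']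

theorem W3_smul_right (h : 1 < d) (x : ℂ) (a b c : L2 d) : W3 a (x • b) c = x * W3 a b c := by
  rw [W3_comm h, W3_smul_left (by omega), W3_comm h b]

/-- (W2) for `W3`. -/
theorem W3_pull (L : Cm d →L[ℝ] Cm d) {a b c a' b' c' : L2 d}
    (ha : ∀ u v, a u v = a' (L u) (L v)) (hb : ∀ u v, b u v = b' (L u) (L v))
    (hc : ∀ u v, c u v = c' (L u) (L v)) : W3 a b c = W3 a' b' c' * (L.det : ℂ) := by
  rw [W3, W3, W_eq, W_eq]
  refine W_pull L fun i u v => ?_
  unfold abc
  split_ifs
  · exact ha u v
  · exact hb u v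
  · exact hc u v

theorem W3_conj {a b c a' b' c' : L2 d} (ha : ∀ u v, a' u v = conj (a u v))
    (hb : ∀ u v, b' u v = conj (b u v)) (hc : ∀ u v, c' u v = conj (c u v)) :
    W3 a' b' c' = conj (W3 a b c) := by
  rw [W3, W3, W_eq, W_eq]
  refine W_conj fun i u v => ?_
  unfold abc
  split_ifs
  · exact ha u v
  · exact hb u v
  · exact hc u v

end dens

/-! ### the integral -/

section glob
variable {d : ℕ} {E Γ : Type} [TopologicalSpace E] [Group Γ] [MulAction Γ E]
  [ContinuousConstSMul Γ E] [Subsingleton Γ] {S : Sheets d E Γ}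

theorem cl2_cont {α : Fin S.N → Cm d → L2 d} (h : Cl2 S α) (i : Fin S.N) :
    ContinuousOn (α i) (ball 0 3) := fun z hz =>
  (h.smooth i z hz (mem_univ _)).continuousAt.continuousWithinAt

theorem wint_cont {α : Fin d → Fin S.N → Cm d → L2 d} (h : ∀ k, Cl2 S (α k)) (i : Fin S.N) :
    ContinuousOn (fun z => W fun k => α k i z) (ball 0 3) := cont_W fun k => cl2_cont (h k) i

/-- Changing one factor by an exact form. -/
theorem wint_upd {α : Fin d → Fin S.N → Cm d → L2 d} (k₀ : Fin d) {γ γ' : Fin S.N → Cm d → L2 d}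
    (h : ∀ k, k ≠ k₀ → Cl2 S (α k)) (hγ : Cl2 S γ) (hγ' : Cl2 S γ')
    (he : Exact S (fun i z => γ i z - γ' i z)) :
    Wint S (Function.update α k₀ γ) = Wint S (Function.update α k₀ γ') := by
  have hcl : ∀ δ : Fin S.N → Cm d → L2 d, Cl2 S δ → ∀ k, Cl2 S (Function.update α k₀ δ k) := by
    intro δ hδ k
    by_cases hk : k = k₀
    · subst hk
      rw [Function.update_self]; exact hδ
    · rw [Function.update_of_ne hk]; exact h k hk
  have h1 : Wint S (Function.update α k₀ fun i z => γ i z - γ' i z) = 0 := by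
    refine wint_exact k₀ (fun k hk => ?_) ?_
    · rw [Function.update_of_ne hk]; exact h k hk
    · rw [Function.update_self]; exact he
  have h2 : Wint S (Function.update α k₀ fun i z => γ i z - γ' i z) =
      Wint S (Function.update α k₀ γ) - Wint S (Function.update α k₀ γ') := by
    unfold Wint Sheets.int
    rw [← Finset.sum_sub_distrib]
    refine Finset.sum_congr rfl fun i _ => ?_
    rw [← integral_sub (integrableOn_P S i (wint_cont (hcl γ hγ) i))
      (integrableOn_P S i (wint_cont (hcl γ' hγ') i))]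
    refine setIntegral_congr_fun (meas_P S i) fun z _ => ?_
    simp only [upd_ev]
    exact W_sub _ _ _ _
  rw [h2] at h1
  exact sub_eq_zero.1 h1

/-- **The integral of the top product depends on the classes only.** -/
theorem wint_class {α α' : Fin d → Fin S.N → Cm d → L2 d} (h : ∀ k, Cl2 S (α k))
    (h' : ∀ k, Cl2 S (α' k)) (he : ∀ k, Exact S (fun i z => α k i z - α' k i z)) :
    Wint S α = Wint S α' := by
  classical
  have key : ∀ s : Finset (Fin d), Wint S (s.piecewise α α') = Wint S α' := by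
    intro s
    induction s using Finset.induction_on with
    | empty => rw [Finset.piecewise_empty]
    | insert a s ha ih =>
      rw [Finset.piecewise_insert]
      have hcl : ∀ k, Cl2 S (s.piecewise α α' k) := by
        intro k
        by_cases hk : k ∈ s
        · rw [Finset.piecewise_eq_of_mem _ _ _ hk]; exact h k
        · rw [Finset.piecewise_eq_of_notMem _ _ _ hk]; exact h' k
      rw [wint_upd a (fun k _ => hcl k) (h a) (h' a) (he a), ← ih]
      congr 1
      conv_rhs => rw [← Function.update_eq_self a (s.piecewise α α')]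
      rw [Finset.piecewise_eq_of_notMem _ _ _ ha]
  have h1 := key Finset.univ
  rwa [Finset.piecewise_univ] at h1

/-- **(W5)** the integral of the top product is invariant under a diffeomorphism. -/
theorem wint_pull [T2Space E] {E' Γ' : Type} [TopologicalSpace E'] [T2Space E'] [Group Γ']
    [Subsingleton Γ'] [MulAction Γ' E'] [ContinuousConstSMul Γ' E'] {S' : Sheets d E' Γ'}
    {τ : E ≃ₜ E'} (hd : 0 < d) (hτ : Dif S S' τ) {α : Fin d → Fin S.N → Cm d → L2 d}
    {α' : Fin d → Fin S'.N → Cm d → L2 d} (h : ∀ k, Cl2 S (α k)) (h' : ∀ k, Cl2 S' (α' k))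
    (hp : ∀ k, Pull2 S S' τ (α k) (α' k)) : Wint S α = Wint S' α' :=
  Vale.Agent.P281.H840.TS.intInv d E Γ S E' Γ' S' τ _ _ hd hτ (fun i => wint_cont h i)
    (fun i => wint_cont h' i)
    fun i j z hz z' hz' ψ hψ => W_pull _ fun k u v => hp k i j z hz z' hz' ψ hψ u v

end glob

end Vale.Agent.P281.H864.HK
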