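import Vale.Agent.P281.H864.HK.Rep
import Vale.Agent.P281.H191.HK.Int3

/-!
# P281, project T-HK, block RA (helper864): the two integrals on one manifold
-/

open Set Filter Metric MeasureTheory
open scoped Topology ContDiff ComplexConjugate

noncomputable section

namespace Vale.Agent.P281.H864.HK

open Vale.Agent.P281.H64 (Cm)
open Vale.Agent.P281.H64.TK Vale.Agent.P281.H303.K
open Vale.Agent.P281.H64.TK.TS (L1 L2 F1On F2On Cl2 Exact IsD1 Pull2 Dif Real2 Tr d1)
open Vale.Agent.P281.H83.HK (tf cj c20 ts cjs kw bW W3 abc kf)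
open Vale.Agent.P281.H191.HK (f3 f3_apply bW_eq)

variable {d : ℕ} {E Γ : Type} [TopologicalSpace E] [Group Γ] [MulAction Γ E]
  {S : Sheets d E Γ}

/-- `m` factors `a`, then factors `b` in the first half, and factors `c` in the second half. -/
def fam (a b c : Fin S.N → Cm d → L2 d) (m : ℕ) (k : Fin d) : Fin S.N → Cm d → L2 d :=
  if 2 * k.val < d then (if k.val < m then a else b) else c

/-- The second half of the indices. -/
def hf (d : ℕ) : Finset (Fin d) := Finset.univ.filter fun k => ¬ 2 * k.val < d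

theorem card_hf {n : ℕ} (hd : d = 2 * n) : 2 * (hf d).card = d := by
  subst hd
  have h1 : (hf (2 * n)) = (Finset.univ : Finset (Fin n)).map
      ⟨fun i : Fin n => (⟨n + i.val, by omega⟩ : Fin (2 * n)), fun i j h => by
        have := congrArg Fin.val h
        exact Fin.ext (by simpa using this)⟩ := by
    ext k
    rw [hf, Finset.mem_filter, Finset.mem_map]
    constructor
    · rintro ⟨-, hk⟩
      refine ⟨⟨k.val - n, by omega⟩, Finset.mem_univ _, ?_⟩
      apply Fin.ext
      show n + (k.val - n) = k.val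
      omega
    · rintro ⟨i, -, hi⟩
      refine ⟨Finset.mem_univ _, ?_⟩
      rw [← hi]
      show ¬ 2 * (n + i.val) < 2 * n
      omega
  rw [h1, Finset.card_map, Finset.card_univ, Fintype.card_fin]

theorem fam_step {a b c : Fin S.N → Cm d → L2 d} {m : ℕ} (hm : 2 * m < d) (hm' : m < d) :
    fam a b c m = Function.update (fam a b c m) ⟨m, hm'⟩ b := by
  funext k
  by_cases hk : k = ⟨m, hm'⟩
  · subst hk
    rw [Function.update_self]
    unfold fam
    rw [if_pos hm, if_neg (lt_irrefl m)]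
  · rw [Function.update_of_ne hk]

theorem fam_succ {a b c : Fin S.N → Cm d → L2 d} {m : ℕ} (hm : 2 * m < d) (hm' : m < d) :
    fam a b c (m + 1) = Function.update (fam a b c m) ⟨m, hm'⟩ a := by
  funext k
  by_cases hk : k = ⟨m, hm'⟩
  · subst hk
    rw [Function.update_self]
    unfold fam
    rw [if_pos hm, if_pos (Nat.lt_succ_self m)]
  · rw [Function.update_of_ne hk]
    have hk' : k.val ≠ m := fun h => hk (Fin.ext h)
    have e1 : (k.val < m + 1) = (k.val < m) := by
      apply propext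
      omega
    simp only [fam, e1]

theorem fam_prop {P : (Fin S.N → Cm d → L2 d) → Prop} {a b c : Fin S.N → Cm d → L2 d}
    (ha : P a) (hb : P b) (hc : P c) (m : ℕ) (k : Fin d) : P (fam a b c m k) := by
  unfold fam
  split_ifs <;> assumption

variable [ContinuousConstSMul Γ E] [Subsingleton Γ]

theorem wint_smul {F : Fin d → Fin S.N → Cm d → L2 d} {k₀ : Fin d} {γ γ' : Fin S.N → Cm d → L2 d}
    {c : ℂ} (h : ∀ i, ∀ z ∈ ball (0 : Cm d) 3, γ i z = c • γ' i z) :
    Wint S (Function.update F k₀ γ) = c * Wint S (Function.update F k₀ γ') := by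
  have h1 : Wint S (Function.update F k₀ γ) =
      S.int fun i z => c * W fun k => (Function.update F k₀ γ') k i z := by
    refine int_congr S fun i z hz => ?_
    rw [upd_ev, upd_ev, h i z hz]
    exact W_smul _ _ _ _
  rw [h1]
  unfold Wint Sheets.int
  rw [Finset.mul_sum]
  exact Finset.sum_congr rfl fun i _ => integral_const_mul _ _

/-- What `HTStmt` gives for `α`, and the generator. -/
def Harm (S : Sheets d E Γ) (α : Fin S.N → Cm d → L2 d)
    (h : Fin S.N → Cm d → Matrix (Fin d) (Fin d) ℂ) : Prop :=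
  ∀ ε > 0, ∃ β : Fin S.N → Cm d → L1 d, F1On S univ β ∧
    ∑ i, ∫ z in S.P i, ∑ j, ∑ k, ‖(c20 (α i z - d1 (β i) z) - h i z) j k‖ ^ 2 < ε

variable {s h : Fin S.N → Cm d → Matrix (Fin d) (Fin d) ℂ} {α : Fin S.N → Cm d → L2 d}

/-- **(A1)** `∫ α^n ∧ conj s^n = c^n ∫ s^n ∧ conj s^n`. -/
theorem stepA {n : ℕ} (hd : d = 2 * n) (hα : Cl2 S α) (hs : Cl2 S (ts s))
    (hcs : Cl2 S (cjs (ts s))) (hh : Cl2 S (ts h)) (hH : Harm S α h) {c : ℂ}
    (hc : ∀ i, ∀ z ∈ ball (0 : Cm d) 3, ts h i z = c • ts s i z) (m : ℕ) (hm : m ≤ n) :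
    Wint S (fam (ts s) α (cjs (ts s)) 0) = c ^ m * Wint S (fam (ts s) α (cjs (ts s)) m) := by
  induction m with
  | zero => rw [pow_zero, one_mul]
  | succ m ih =>
    have hm2 : 2 * m < d := by omega
    have hm' : m < d := by omega
    rw [ih (by omega), fam_succ hm2 hm']
    have h1 : Wint S (fam (ts s) α (cjs (ts s)) m) = Wint S (Function.update
        (fam (ts s) α (cjs (ts s)) m) ⟨m, hm'⟩ (ts h)) := by
      conv_lhs => rw [fam_step hm2 hm']
      refine rep (fun k _ => fam_prop hs hα hcs m k) hα hh hH fun i z hz a ha h20 => ?_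
      rw [← W_eq]
      refine W_type (J := hf d) (card_hf hd) (fun _ => s i z) (fun k hk => ?_) (k₀ := ⟨m, hm'⟩)
        ?_ ?_
      · have hk' : ¬ 2 * k.val < d := (Finset.mem_filter.1 hk).2
        have hkm : k ≠ ⟨m, hm'⟩ := by
          rintro rfl
          exact hk' hm2
        rw [Function.update_of_ne hkm]
        show fam (ts s) α (cjs (ts s)) m k i z = _
        unfold fam
        rw [if_neg hk']
        rfl
      · intro hk
        exact (Finset.mem_filter.1 hk).2 hm2
      · rw [Function.update_self]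
        exact h20
    rw [h1, wint_smul hc, pow_succ]
    ring

theorem f3_upd {a b c : Fin S.N → Cm d → L2 d} (hd : 0 < d) :
    f3 a b c = Function.update (f3 a b c) ⟨0, hd⟩ a := by
  funext k
  by_cases hk : k = ⟨0, hd⟩
  · subst hk
    rw [Function.update_self]
    rfl
  · rw [Function.update_of_ne hk]

theorem f3_upd' {a a' b c : Fin S.N → Cm d → L2 d} (hd : 0 < d) :
    Function.update (f3 a b c) ⟨0, hd⟩ a' = f3 a' b c := by
  funext k
  by_cases hk : k = ⟨0, hd⟩
  · subst hk
    rw [Function.update_self]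
    rfl
  · rw [Function.update_of_ne hk]
    have hk' : k.val ≠ 0 := fun h => hk (Fin.ext h)
    unfold f3
    rw [if_neg hk', if_neg hk']

/-- **(A2)** `∫ α ∧ b ∧ ω^(d-2) = c ∫ s ∧ b ∧ ω^(d-2)`, if only the `(2,0)`-part matters. -/
theorem stepB (hd : 0 < d) {b k : Fin S.N → Cm d → L2 d} (hα : Cl2 S α) (hb : Cl2 S b)
    (hk : Cl2 S k) (hh : Cl2 S (ts h)) (hH : Harm S α h) {c : ℂ}
    (hc : ∀ i, ∀ z ∈ ball (0 : Cm d) 3, ts h i z = c • ts s i z)
    (h0 : ∀ i, ∀ z ∈ ball (0 : Cm d) 3, ∀ a : L2 d, (∀ u v, a u v = -a v u) → c20 a = 0 →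
      W3 a (b i z) (k i z) = 0) :
    bW S α b k = c * bW S (ts s) b k := by
  rw [bW_eq, bW_eq, f3_upd hd]
  have h1 : Wint S (Function.update (f3 α b k) ⟨0, hd⟩ α) = Wint S (Function.update
      (f3 α b k) ⟨0, hd⟩ (ts h)) := by
    refine rep (fun l _ => Vale.Agent.P281.H191.HK.f3_prop hα hb hk l) hα hh hH
      fun i z hz a ha h20 => ?_
    have h2 := h0 i z hz a ha h20
    rw [W3, W_eq] at h2
    rw [← h2]
    congr 1
    funext l
    by_cases hl : l = ⟨0, hd⟩
    · subst hl
      rw [Function.update_self]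
      rfl
    · rw [Function.update_of_ne hl]
      have hl' : l.val ≠ 0 := fun h => hl (Fin.ext h)
      unfold f3 abc
      rw [if_neg hl', if_neg hl']
      split_ifs <;> rfl
  rw [h1, wint_smul hc, f3_upd']

end Vale.Agent.P281.H864.HK
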