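import Vale.Agent.P281.H864.HK.W
import Vale.Agent.P281.H125.TS.Stk

/-!
# P281, project T-HK, block W (helper864): the local Stokes theorem for the top product
-/

open Set Filter Metric MeasureTheory
open scoped Topology ContDiff ComplexConjugate

noncomputable section

namespace Vale.Agent.P281.H864.HK

open Vale.Agent.P281.H64 (Cm)
open Vale.Agent.P281.H125.TS (dx1 dx1_apply int_fderiv_ball)

variable {d : ℕ} {ι : Type} [Fintype ι] [DecidableEq ι]

/-- The 3-cycle `(k, 0) → (j, 0) → (j, 1) → (k, 0)`. -/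
def cyc (k j : ι) : Equiv.Perm (ι × Fin 2) :=
  Equiv.swap (k, 0) (j, 0) * Equiv.swap (j, 0) (j, 1)

theorem nepr {i j : ι} (h : i ≠ j) (l m : Fin 2) : ((i, l) : ι × Fin 2) ≠ (j, m) := fun e =>
  h (congrArg Prod.fst e)

theorem ne01 (i : ι) : ((i, 0) : ι × Fin 2) ≠ (i, 1) := fun e => by
  have := congrArg Prod.snd e
  simp at this

theorem cyc_sign {k j : ι} (h : j ≠ k) : Equiv.Perm.sign (cyc k j) = 1 := by
  rw [cyc, Equiv.Perm.sign_mul, Equiv.Perm.sign_swap (nepr h.symm 0 0),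
    Equiv.Perm.sign_swap (ne01 j)]
  rfl

theorem cyc_k0 {k j : ι} (h : j ≠ k) : cyc k j (k, 0) = (j, 0) := by
  rw [cyc, Equiv.Perm.mul_apply, Equiv.swap_apply_of_ne_of_ne (nepr h.symm 0 0) (nepr h.symm 0 1),
    Equiv.swap_apply_left]

theorem cyc_j0 {k j : ι} (h : j ≠ k) : cyc k j (j, 0) = (j, 1) := by
  rw [cyc, Equiv.Perm.mul_apply, Equiv.swap_apply_left,
    Equiv.swap_apply_of_ne_of_ne (nepr h 1 0) (ne01 j).symm]

theorem cyc_j1 {k j : ι} : cyc k j (j, 1) = (k, 0) := by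
  rw [cyc, Equiv.Perm.mul_apply, Equiv.swap_apply_right, Equiv.swap_apply_right]

theorem cyc_k1 {k j : ι} (h : j ≠ k) : cyc k j (k, 1) = (k, 1) := by
  rw [cyc, Equiv.Perm.mul_apply, Equiv.swap_apply_of_ne_of_ne (nepr h.symm 1 0) (nepr h.symm 1 1),
    Equiv.swap_apply_of_ne_of_ne (ne01 k).symm (nepr h.symm 1 0)]

theorem cyc_of {k j i : ι} (hk : i ≠ k) (hj : i ≠ j) (l : Fin 2) : cyc k j (i, l) = (i, l) := by
  rw [cyc, Equiv.Perm.mul_apply, Equiv.swap_apply_of_ne_of_ne (nepr hj l 0) (nepr hj l 1),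
    Equiv.swap_apply_of_ne_of_ne (nepr hk l 0) (nepr hj l 0)]

section
variable {b : Cm d → (Cm d →L[ℝ] ℂ)} {a : ι → Cm d → (Cm d →L[ℝ] Cm d →L[ℝ] ℂ)} {k₀ : ι}
  {v : ι × Fin 2 → Cm d} {z : Cm d}

/-- The vector field. -/
def X (k₀ : ι) (b : Cm d → (Cm d →L[ℝ] ℂ)) (a : ι → Cm d → (Cm d →L[ℝ] Cm d →L[ℝ] ℂ))
    (v : ι × Fin 2 → Cm d) (π : Equiv.Perm (ι × Fin 2)) (z : Cm d) : ℂ :=
  b z (v (π (k₀, 1))) * ∏ j ∈ Finset.univ.erase k₀, a j z (v (π (j, 0))) (v (π (j, 1)))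

theorem fderiv_ev {f : Cm d → (Cm d →L[ℝ] Cm d →L[ℝ] ℂ)} (hf : DifferentiableAt ℝ f z)
    (x y : Cm d) : HasFDerivAt (fun w => f w x y) (((fderiv ℝ f z).flip x).flip y) z := by
  refine ((hf.hasFDerivAt.clm_apply (hasFDerivAt_const x z)).clm_apply
    (hasFDerivAt_const y z)).congr_fderiv ?_
  ext u
  simp

theorem fderiv_ev1 {f : Cm d → (Cm d →L[ℝ] ℂ)} (hf : DifferentiableAt ℝ f z)
    (x : Cm d) : HasFDerivAt (fun w => f w x) ((fderiv ℝ f z).flip x) z := by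
  refine (hf.hasFDerivAt.clm_apply (hasFDerivAt_const x z)).congr_fderiv ?_
  ext u
  simp

theorem fderiv_X (hb : DifferentiableAt ℝ b z) (ha : ∀ k, k ≠ k₀ → DifferentiableAt ℝ (a k) z)
    (π : Equiv.Perm (ι × Fin 2)) (u : Cm d) :
    fderiv ℝ (X k₀ b a v π) z u =
      fderiv ℝ b z u (v (π (k₀, 1))) *
        ∏ j ∈ Finset.univ.erase k₀, a j z (v (π (j, 0))) (v (π (j, 1))) +
      ∑ j ∈ Finset.univ.erase k₀, b z (v (π (k₀, 1))) *
        fderiv ℝ (a j) z u (v (π (j, 0))) (v (π (j, 1))) *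
        ∏ i ∈ (Finset.univ.erase k₀).erase j, a i z (v (π (i, 0))) (v (π (i, 1))) := by
  have h1 : HasFDerivAt (fun w => ∏ j ∈ Finset.univ.erase k₀, a j w (v (π (j, 0))) (v (π (j, 1))))
      (∑ j ∈ Finset.univ.erase k₀, (∏ i ∈ (Finset.univ.erase k₀).erase j,
        a i z (v (π (i, 0))) (v (π (i, 1)))) •
        ((fderiv ℝ (a j) z).flip (v (π (j, 0)))).flip (v (π (j, 1)))) z :=
    HasFDerivAt.finsetProd fun j hj => fderiv_ev (ha j (Finset.mem_erase.1 hj).1) _ _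
  have h2 := ((fderiv_ev1 hb (v (π (k₀, 1)))).mul h1).fderiv
  have h3 : X k₀ b a v π = (fun w => b w (v (π (k₀, 1)))) *
      fun w => ∏ j ∈ Finset.univ.erase k₀, a j w (v (π (j, 0))) (v (π (j, 1))) := rfl
  rw [h3, h2]
  simp only [add_apply, smul_apply, sum_apply,
    ContinuousLinearMap.flip_apply, smul_eq_mul, Finset.mul_sum]
  rw [add_comm]
  congr 1
  · ring
  · refine Finset.sum_congr rfl fun j _ => ?_
    ring

/-- The pointwise identity. -/
theorem point (hb : DifferentiableAt ℝ b z) (ha : ∀ k, k ≠ k₀ → DifferentiableAt ℝ (a k) z)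
    (hcl : ∀ k, k ≠ k₀ → ∀ u v w,
      fderiv ℝ (a k) z u v w + fderiv ℝ (a k) z v w u + fderiv ℝ (a k) z w u v = 0) :
    Wv (Function.update (fun k => a k z) k₀ (dx1 b z)) v =
      (1 / 2 : ℂ) ^ Fintype.card ι * (2 * ∑ π : Equiv.Perm (ι × Fin 2),
        ((Equiv.Perm.sign π : ℤ) : ℂ) * fderiv ℝ (X k₀ b a v π) z (v (π (k₀, 0)))) := by
  -- the two parts of `dx1`
  set F : Equiv.Perm (ι × Fin 2) → ℂ := fun π => fderiv ℝ b z (v (π (k₀, 0))) (v (π (k₀, 1))) *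
    ∏ j ∈ Finset.univ.erase k₀, a j z (v (π (j, 0))) (v (π (j, 1))) with hF
  have e1 : Wv (Function.update (fun k => a k z) k₀ (dx1 b z)) v =
      (1 / 2 : ℂ) ^ Fintype.card ι * (2 * ∑ π : Equiv.Perm (ι × Fin 2),
        ((Equiv.Perm.sign π : ℤ) : ℂ) * F π) := by
    have h1 := sum_perm F (Equiv.swap (k₀, 0) (k₀, 1))
    rw [Equiv.Perm.sign_swap (by simp)] at h1
    have h2 : ∀ π : Equiv.Perm (ι × Fin 2), F (π * Equiv.swap (k₀, 0) (k₀, 1)) =
        fderiv ℝ b z (v (π (k₀, 1))) (v (π (k₀, 0))) *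
          ∏ j ∈ Finset.univ.erase k₀, a j z (v (π (j, 0))) (v (π (j, 1))) := by
      intro π
      simp only [hF, Equiv.Perm.mul_apply, Equiv.swap_apply_left, Equiv.swap_apply_right]
      congr 1
      refine Finset.prod_congr rfl fun j hj => ?_
      have hj' := (Finset.mem_erase.1 hj).1
      rw [Equiv.swap_apply_of_ne_of_ne (by simp [hj']) (by simp [hj']),
        Equiv.swap_apply_of_ne_of_ne (by simp [hj']) (by simp [hj'])]
    rw [Wv]
    congr 1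
    rw [two_mul]
    nth_rewrite 2 [show (∑ π : Equiv.Perm (ι × Fin 2), ((Equiv.Perm.sign π : ℤ) : ℂ) * F π) =
      - ∑ π : Equiv.Perm (ι × Fin 2), ((Equiv.Perm.sign π : ℤ) : ℂ) *
        F (π * Equiv.swap (k₀, 0) (k₀, 1)) by rw [h1]; simp]
    rw [← sub_eq_add_neg, ← Finset.sum_sub_distrib]
    refine Finset.sum_congr rfl fun π _ => ?_
    rw [pr_form, dx1_apply, h2, ← mul_sub, hF]
    ring
  -- the closed forms
  have e2 : ∀ j, j ≠ k₀ → ∑ π : Equiv.Perm (ι × Fin 2), ((Equiv.Perm.sign π : ℤ) : ℂ) *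
      (b z (v (π (k₀, 1))) *
        fderiv ℝ (a j) z (v (π (k₀, 0))) (v (π (j, 0))) (v (π (j, 1))) *
        ∏ i ∈ (Finset.univ.erase k₀).erase j, a i z (v (π (i, 0))) (v (π (i, 1)))) = 0 := by
    intro j hj
    set G : Equiv.Perm (ι × Fin 2) → ℂ := fun π => b z (v (π (k₀, 1))) *
        fderiv ℝ (a j) z (v (π (k₀, 0))) (v (π (j, 0))) (v (π (j, 1))) *
        ∏ i ∈ (Finset.univ.erase k₀).erase j, a i z (v (π (i, 0))) (v (π (i, 1))) with hG
    have hP : ∀ π : Equiv.Perm (ι × Fin 2), (∏ i ∈ (Finset.univ.erase k₀).erase j,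
        a i z (v ((π * cyc k₀ j) (i, 0))) (v ((π * cyc k₀ j) (i, 1)))) =
        ∏ i ∈ (Finset.univ.erase k₀).erase j, a i z (v (π (i, 0))) (v (π (i, 1))) := by
      intro π
      refine Finset.prod_congr rfl fun i hi => ?_
      have hi1 := (Finset.mem_erase.1 hi).1
      have hi2 := (Finset.mem_erase.1 (Finset.mem_erase.1 hi).2).1
      rw [Equiv.Perm.mul_apply, Equiv.Perm.mul_apply, cyc_of hi2 hi1, cyc_of hi2 hi1]
    have g1 : ∀ π : Equiv.Perm (ι × Fin 2), G (π * cyc k₀ j) = b z (v (π (k₀, 1))) *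
        fderiv ℝ (a j) z (v (π (j, 0))) (v (π (j, 1))) (v (π (k₀, 0))) *
        ∏ i ∈ (Finset.univ.erase k₀).erase j, a i z (v (π (i, 0))) (v (π (i, 1))) := by
      intro π
      simp only [hG]
      rw [hP]
      simp only [Equiv.Perm.mul_apply, cyc_k0 hj, cyc_k1 hj, cyc_j0 hj, cyc_j1]
    have g2 : ∀ π : Equiv.Perm (ι × Fin 2), G (π * cyc k₀ j * cyc k₀ j) = b z (v (π (k₀, 1))) *
        fderiv ℝ (a j) z (v (π (j, 1))) (v (π (k₀, 0))) (v (π (j, 0))) *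
        ∏ i ∈ (Finset.univ.erase k₀).erase j, a i z (v (π (i, 0))) (v (π (i, 1))) := by
      intro π
      rw [g1, hP]
      simp only [Equiv.Perm.mul_apply, cyc_k0 hj, cyc_k1 hj, cyc_j0 hj, cyc_j1]
    have s1 := sum_perm G (cyc k₀ j)
    have s2 := sum_perm (fun π => G (π * cyc k₀ j)) (cyc k₀ j)
    rw [cyc_sign hj, Units.val_one, Int.cast_one, one_mul] at s1 s2
    have s3 : ∑ π : Equiv.Perm (ι × Fin 2), ((Equiv.Perm.sign π : ℤ) : ℂ) * G π +
        ∑ π : Equiv.Perm (ι × Fin 2), ((Equiv.Perm.sign π : ℤ) : ℂ) * G (π * cyc k₀ j) +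
        ∑ π : Equiv.Perm (ι × Fin 2), ((Equiv.Perm.sign π : ℤ) : ℂ) *
          G (π * cyc k₀ j * cyc k₀ j) = 0 := by
      rw [← Finset.sum_add_distrib, ← Finset.sum_add_distrib]
      refine Finset.sum_eq_zero fun π _ => ?_
      rw [g1, g2, ← mul_add, ← mul_add]
      have h4 := hcl j hj (v (π (k₀, 0))) (v (π (j, 0))) (v (π (j, 1)))
      simp only [hG]
      linear_combination (((Equiv.Perm.sign π : ℤ) : ℂ) * (b z (v (π (k₀, 1)))) *
        (∏ i ∈ (Finset.univ.erase k₀).erase j, a i z (v (π (i, 0))) (v (π (i, 1))))) * h4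
    rw [s2, s1] at s3
    linear_combination s3 / 3
  rw [e1]
  congr 2
  have e3 : ∀ π : Equiv.Perm (ι × Fin 2), ((Equiv.Perm.sign π : ℤ) : ℂ) *
      fderiv ℝ (X k₀ b a v π) z (v (π (k₀, 0))) = ((Equiv.Perm.sign π : ℤ) : ℂ) * F π +
      ∑ j ∈ Finset.univ.erase k₀, ((Equiv.Perm.sign π : ℤ) : ℂ) * (b z (v (π (k₀, 1))) *
        fderiv ℝ (a j) z (v (π (k₀, 0))) (v (π (j, 0))) (v (π (j, 1))) *
        ∏ i ∈ (Finset.univ.erase k₀).erase j, a i z (v (π (i, 0))) (v (π (i, 1)))) := by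
    intro π
    rw [fderiv_X hb ha, mul_add, Finset.mul_sum]
  rw [Finset.sum_congr rfl fun π _ => e3 π, Finset.sum_add_distrib, Finset.sum_comm,
    Finset.sum_eq_zero (s := Finset.univ.erase k₀)
      fun j hj => e2 j (Finset.mem_erase.1 hj).1, add_zero]

/-- **Local Stokes theorem.** -/
theorem stokes_loc (hb : ContDiffOn ℝ ∞ b (ball 0 3))
    (ha : ∀ k, k ≠ k₀ → ContDiffOn ℝ ∞ (a k) (ball 0 3))
    (hcl : ∀ k, k ≠ k₀ → ∀ z ∈ ball (0 : Cm d) 3, ∀ u v w,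
      fderiv ℝ (a k) z u v w + fderiv ℝ (a k) z v w u + fderiv ℝ (a k) z w u v = 0)
    (h0 : ∀ z ∈ ball (0 : Cm d) 3, z ∉ closedBall (0 : Cm d) 2 → b z = 0)
    (v : ι × Fin 2 → Cm d) :
    ∫ z in ball (0 : Cm d) 3, Wv (Function.update (fun k => a k z) k₀ (dx1 b z)) v = 0 := by
  have sX : ∀ π, ContDiffOn ℝ ∞ (X k₀ b a v π) (ball 0 3) := fun π =>
    (hb.clm_apply contDiffOn_const).mul (contDiffOn_prod fun j hj =>
      ((ha j (Finset.mem_erase.1 hj).1).clm_apply contDiffOn_const).clm_apply contDiffOn_const)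
  have zX : ∀ π, ∀ z ∈ ball (0 : Cm d) 3, z ∉ closedBall (0 : Cm d) 2 → X k₀ b a v π z = 0 := by
    intro π z hz hz'
    simp only [X, h0 z hz hz', zero_apply, zero_mul]
  have e : ∀ z ∈ ball (0 : Cm d) 3, Wv (Function.update (fun k => a k z) k₀ (dx1 b z)) v =
      (1 / 2 : ℂ) ^ Fintype.card ι * (2 * ∑ π : Equiv.Perm (ι × Fin 2),
        ((Equiv.Perm.sign π : ℤ) : ℂ) * fderiv ℝ (X k₀ b a v π) z (v (π (k₀, 0)))) := fun z hz =>
    point ((hb.contDiffAt (isOpen_ball.mem_nhds hz)).differentiableAt (by simp))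
      (fun k hk => ((ha k hk).contDiffAt (isOpen_ball.mem_nhds hz)).differentiableAt (by simp))
      (fun k hk => hcl k hk z hz)
  rw [setIntegral_congr_fun isOpen_ball.measurableSet e, integral_const_mul, integral_const_mul,
    integral_finsetSum]
  · rw [Finset.sum_eq_zero fun π _ => ?_, mul_zero, mul_zero]
    rw [integral_const_mul, (int_fderiv_ball (sX π) (zX π) _).2, mul_zero]
  · intro π _
    exact ((int_fderiv_ball (sX π) (zX π) _).1).const_mul _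

end

end Vale.Agent.P281.H864.HK
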